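import Vale.Agent.P229.H870.Jet

/-!
# P229: partial derivatives and the Gaussian curvature
-/

open scoped ContDiff RealInnerProductSpace Topology
open Set Metric Filter

namespace Vale.Agent.P229.H870

/-- The partial derivative `∂_k f`. -/
noncomputable def pd (k : Fin 2) (f : E2 → ℝ) (x : E2) : ℝ :=
  fderiv ℝ f x (EuclideanSpace.single k 1)

/-- The Christoffel symbols of the first kind,
`Γ_{kl,j} = (∂_k g_{lj} + ∂_l g_{kj} - ∂_j g_{kl}) / 2`. -/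
noncomputable def chr (g : E2 → Matrix (Fin 2) (Fin 2) ℝ) (k l j : Fin 2) (x : E2) : ℝ :=
  (pd k (fun y => g y l j) x + pd l (fun y => g y k j) x - pd j (fun y => g y k l) x) / 2

/-- The Gaussian curvature `K = R_{0101} / det g`, where `R_{0101} = ∂_0 ∂_1 g_{01} -
∂_0 ∂_0 g_{11} / 2 - ∂_1 ∂_1 g_{00} / 2 + g^{ab} (Γ_{01,a} Γ_{01,b} - Γ_{00,a} Γ_{11,b})`. -/
noncomputable def curvature (g : E2 → Matrix (Fin 2) (Fin 2) ℝ) (x : E2) : ℝ :=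
  (pd 0 (pd 1 fun y => g y 0 1) x - pd 0 (pd 0 fun y => g y 1 1) x / 2 -
    pd 1 (pd 1 fun y => g y 0 0) x / 2 + ∑ a, ∑ b, (g x)⁻¹ a b *
      (chr g 0 1 a x * chr g 0 1 b x - chr g 0 0 a x * chr g 1 1 b x)) / (g x).det

theorem pd_pd {f : E2 → ℝ} {Ω : Set E2} (hΩ : IsOpen Ω) (hf : ContDiffOn ℝ ∞ f Ω) {p : E2}
    (hp : p ∈ Ω) (k l : Fin 2) : fderiv ℝ (fderiv ℝ f) p (e k) (e l) = pd k (pd l f) p := by
  have h1 : ContDiffAt ℝ ∞ f p := hf.contDiffAt (hΩ.mem_nhds hp)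
  have h2 : DifferentiableAt ℝ (fderiv ℝ f) p :=
    (h1.fderiv_right (m := ∞) (by simp)).differentiableAt (by simp)
  have h3 : HasFDerivAt (fun x => fderiv ℝ f x (e l)) _ p :=
    h2.hasFDerivAt.clm_apply (hasFDerivAt_const (e l) p)
  change _ = fderiv ℝ (fun x => fderiv ℝ f x (e l)) p (e k)
  rw [h3.fderiv]
  simp

theorem pd_comm {f : E2 → ℝ} {Ω : Set E2} (hΩ : IsOpen Ω) (hf : ContDiffOn ℝ ∞ f Ω) {p : E2}
    (hp : p ∈ Ω) (k l : Fin 2) : pd k (pd l f) p = pd l (pd k f) p := by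
  rw [← pd_pd hΩ hf hp, ← pd_pd hΩ hf hp]
  have h1 : ContDiffAt ℝ ∞ f p := hf.contDiffAt (hΩ.mem_nhds hp)
  exact ((contDiffAt_infty.1 h1 2).isSymmSndFDerivAt (by simp)).eq (e k) (e l)

end Vale.Agent.P229.H870
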