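import Vale.Agent.P229.H832.Germ

/-!
# P229: cutting off functions which vanish to high order at a point
-/

open scoped ContDiff Topology
open Set Metric Filter

namespace Vale.Agent.P229.H870

section Bound

variable {V W : Type*} [NormedAddCommGroup V] [NormedSpace ℝ V] [NormedAddCommGroup W]
  [NormedSpace ℝ W]

/-- derivatives are bounded on compact sets -/
theorem exists_bound {f : V → W} (hf : ContDiff ℝ ∞ f) {K : Set V} (hK : IsCompact K) (m : ℕ) :
    ∃ A : ℝ, 1 ≤ A ∧ ∀ i ≤ m, ∀ x ∈ K, ‖iteratedFDeriv ℝ i f x‖ ≤ A := by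
  have h1 : ∀ i : ℕ, ∃ A : ℝ, ∀ x ∈ K, ‖iteratedFDeriv ℝ i f x‖ ≤ A := fun i => by
    have h2 : Continuous (iteratedFDeriv ℝ i f) :=
      hf.continuous_iteratedFDeriv (by exact_mod_cast le_top)
    obtain ⟨A, hA⟩ := hK.exists_bound_of_continuousOn h2.continuousOn
    exact ⟨A, hA⟩
  choose A hA using h1
  have h0 : 0 ≤ ∑ i ∈ Finset.range (m + 1), |A i| := Finset.sum_nonneg fun i _ => abs_nonneg _
  refine ⟨1 + ∑ i ∈ Finset.range (m + 1), |A i|, by linarith, ?_⟩
  intro i hi x hx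
  have h3 : |A i| ≤ ∑ i ∈ Finset.range (m + 1), |A i| :=
    Finset.single_le_sum (f := fun i => |A i|) (fun i _ => abs_nonneg _)
      (Finset.mem_range.2 (by omega))
  have := ((hA i x hx).trans (le_abs_self _)).trans h3
  linarith

/-- a product of functions with bounded derivatives -/
theorem mul_bound {a b : V → ℝ} (ha : ContDiff ℝ ∞ a) (hb : ContDiff ℝ ∞ b) {m : ℕ} {x : V}
    {A B : ℝ} (hA0 : 0 ≤ A) (hA : ∀ i ≤ m, ‖iteratedFDeriv ℝ i a x‖ ≤ A)
    (hB : ∀ i ≤ m, ‖iteratedFDeriv ℝ i b x‖ ≤ B) {j : ℕ} (hj : j ≤ m) :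
    ‖iteratedFDeriv ℝ j (fun y => a y * b y) x‖ ≤ 2 ^ m * A * B := by
  have hB0 : 0 ≤ B := (norm_nonneg _).trans (hB 0 (Nat.zero_le _))
  refine (norm_iteratedFDeriv_mul_le (N := ∞) ha hb x (n := j)
    (by exact_mod_cast le_top)).trans ?_
  have h1 : ∀ i ∈ Finset.range (j + 1), (j.choose i : ℝ) * ‖iteratedFDeriv ℝ i a x‖ *
      ‖iteratedFDeriv ℝ (j - i) b x‖ ≤ (j.choose i : ℝ) * (A * B) := by
    intro i hi
    have hi' := Finset.mem_range.1 hi
    rw [mul_assoc]
    exact mul_le_mul_of_nonneg_left (mul_le_mul (hA i (by omega)) (hB (j - i) (by omega))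
      (norm_nonneg _) hA0) (Nat.cast_nonneg _)
  refine (Finset.sum_le_sum h1).trans ?_
  rw [← Finset.sum_mul]
  have h2 : (∑ i ∈ Finset.range (j + 1), (j.choose i : ℝ)) = 2 ^ j := by
    exact_mod_cast Nat.sum_range_choose j
  rw [h2]
  have h3 : (2 : ℝ) ^ j ≤ 2 ^ m := pow_le_pow_right₀ one_le_two hj
  calc (2 : ℝ) ^ j * (A * B) ≤ 2 ^ m * (A * B) := mul_le_mul_of_nonneg_right h3 (by positivity)
    _ = 2 ^ m * A * B := by ring

/-- Taylor: the derivatives of a function with vanishing jet -/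
theorem vanish {u : V → ℝ} [FiniteDimensional ℝ V] (hu : ContDiff ℝ ∞ u) {p : V} {m : ℕ}
    (h0 : ∀ j ≤ m, iteratedFDeriv ℝ j u p = 0) :
    ∃ B : ℝ, 1 ≤ B ∧ ∀ l ≤ m + 1, ∀ x ∈ closedBall p 1,
      ‖iteratedFDeriv ℝ l u x‖ ≤ B * ‖x - p‖ ^ (m + 1 - l) := by
  obtain ⟨B, hB1, hB⟩ := exists_bound hu (isCompact_closedBall p 1) (m + 1)
  refine ⟨B, hB1, ?_⟩
  have key : ∀ k ≤ m + 1, ∀ x ∈ closedBall p 1,
      ‖iteratedFDeriv ℝ (m + 1 - k) u x‖ ≤ B * ‖x - p‖ ^ k := by
    intro k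
    induction k with
    | zero =>
      intro _ x hx
      simpa using hB (m + 1) le_rfl x hx
    | succ k ih =>
      intro hk x hx
      have hk' : m + 1 - k = m + 1 - (k + 1) + 1 := by omega
      set l := m + 1 - (k + 1) with hl
      have hdiff : Differentiable ℝ (iteratedFDeriv ℝ l u) :=
        hu.differentiable_iteratedFDeriv (by
          exact_mod_cast ENat.natCast_lt_top l)
      have hx1 : dist x p ≤ 1 := hx
      have h1 : ‖iteratedFDeriv ℝ l u x - iteratedFDeriv ℝ l u p‖ ≤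
          (B * ‖x - p‖ ^ k) * ‖x - p‖ := by
        refine (convex_closedBall p (dist x p)).norm_image_sub_le_of_norm_fderiv_le
          (fun y _ => hdiff.differentiableAt) (fun y hy => ?_)
          (mem_closedBall_self dist_nonneg) (mem_closedBall.2 le_rfl)
        rw [norm_fderiv_iteratedFDeriv, ← hk']
        refine (ih (by omega) y (mem_closedBall.2 ((mem_closedBall.1 hy).trans hx1))).trans ?_
        refine mul_le_mul_of_nonneg_left ?_ (by linarith)
        refine pow_le_pow_left₀ (norm_nonneg _) ?_ _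
        rw [← dist_eq_norm, ← dist_eq_norm]
        exact hy
      rw [h0 l (by omega), sub_zero] at h1
      rw [pow_succ, ← mul_assoc]
      exact h1
  intro l hl x hx
  have := key (m + 1 - l) (by omega) x hx
  rwa [show m + 1 - (m + 1 - l) = l by omega] at this

end Bound

/-- the fixed bump function -/
noncomputable def bump : ContDiffBump (0 : E2) := ⟨1 / 2, 1, by norm_num, by norm_num⟩

/-- the scaled bump function -/
noncomputable def chi (p : E2) (r : ℝ) (x : E2) : ℝ := bump (r⁻¹ • (x - p))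

theorem chi_smooth (p : E2) (r : ℝ) : ContDiff ℝ ∞ (chi p r) :=
  bump.contDiff.comp ((contDiff_const_smul r⁻¹).comp (contDiff_id.sub contDiff_const))

theorem chi_nonneg (p : E2) (r : ℝ) (x : E2) : 0 ≤ chi p r x := bump.nonneg

theorem chi_le_one (p : E2) (r : ℝ) (x : E2) : chi p r x ≤ 1 := bump.le_one

theorem chi_one {p : E2} {r : ℝ} (hr : 0 < r) {x : E2} (hx : x ∈ closedBall p (r / 2)) :
    chi p r x = 1 := by
  refine bump.one_of_mem_closedBall ?_
  rw [mem_closedBall_zero_iff, norm_smul, norm_inv, Real.norm_of_nonneg hr.le]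
  rw [mem_closedBall, dist_eq_norm] at hx
  change _ ≤ (1 / 2 : ℝ)
  rw [inv_mul_le_iff₀ hr]
  linarith

theorem chi_zero {p : E2} {r : ℝ} (hr : 0 < r) {x : E2} (hx : x ∉ ball p r) :
    chi p r x = 0 := by
  refine bump.zero_of_le_dist ?_
  rw [dist_zero_right, norm_smul, norm_inv, Real.norm_of_nonneg hr.le]
  rw [mem_ball, dist_eq_norm, not_lt] at hx
  change (1 : ℝ) ≤ _
  rw [le_inv_mul_iff₀ hr]
  linarith

/-- derivatives of the scaled bump function -/
theorem chi_bound (m : ℕ) : ∃ A : ℝ, 1 ≤ A ∧ ∀ (p : E2) (r : ℝ), 0 < r → ∀ j ≤ m, ∀ x : E2,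
    ‖iteratedFDeriv ℝ j (chi p r) x‖ ≤ A * (r⁻¹) ^ j := by
  obtain ⟨A, hA1, hA⟩ := exists_bound (f := (bump : E2 → ℝ)) bump.contDiff
    (isCompact_closedBall (0 : E2) 1) m
  refine ⟨A, hA1, fun p r hr j hj x => ?_⟩
  have h1 : iteratedFDeriv ℝ j (chi p r) x =
      iteratedFDeriv ℝ j (fun y : E2 => bump (r⁻¹ • y)) (x - p) :=
    congrFun (iteratedFDeriv_comp_sub' (𝕜 := ℝ) (f := fun y : E2 => bump (r⁻¹ • y)) j p) x
  rw [h1]
  refine (H832.iteratedFDeriv_comp_smul (f := (bump : E2 → ℝ)) bump.contDiff j _).trans ?_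
  rw [abs_of_pos (inv_pos.2 hr), mul_comm]
  refine mul_le_mul_of_nonneg_right ?_ (by positivity)
  by_cases hx : r⁻¹ • (x - p) ∈ closedBall (0 : E2) 1
  · exact hA j hj _ hx
  · have h2 : iteratedFDeriv ℝ j (bump : E2 → ℝ) (r⁻¹ • (x - p)) = 0 := by
      by_contra h3
      refine hx ?_
      have h4 := support_iteratedFDeriv_subset j h3
      rw [bump.tsupport_eq] at h4
      exact h4
    rw [h2, norm_zero]
    linarith

/-- **cutting off a function with vanishing jet** -/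
theorem cut_small {u : E2 → ℝ} (hu : ContDiff ℝ ∞ u) {p : E2} {m : ℕ}
    (h0 : ∀ j ≤ m, iteratedFDeriv ℝ j u p = 0) :
    ∃ C : ℝ, 1 ≤ C ∧ ∀ r : ℝ, 0 < r → r ≤ 1 → ∀ j ≤ m, ∀ x : E2,
      ‖iteratedFDeriv ℝ j (fun y => chi p r y * u y) x‖ ≤ C * r := by
  obtain ⟨A, hA1, hA⟩ := chi_bound m
  obtain ⟨B, hB1, hB⟩ := vanish hu h0
  refine ⟨2 ^ m * (A * B), one_le_mul_of_one_le_of_one_le (one_le_pow₀ one_le_two)
    (one_le_mul_of_one_le_of_one_le hA1 hB1), fun r hr hr1 j hj x => ?_⟩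
  by_cases hx : x ∈ closedBall p r
  · refine (norm_iteratedFDeriv_mul_le (N := ∞) (chi_smooth p r) hu x (n := j)
      (by exact_mod_cast le_top)).trans ?_
    have hxr : ‖x - p‖ ≤ r := by rwa [mem_closedBall, dist_eq_norm] at hx
    have h1 : ∀ i ∈ Finset.range (j + 1), (j.choose i : ℝ) * ‖iteratedFDeriv ℝ i (chi p r) x‖ *
        ‖iteratedFDeriv ℝ (j - i) u x‖ ≤ (j.choose i : ℝ) * (A * B * r) := by
      intro i hi
      have hi' := Finset.mem_range.1 hi
      rw [mul_assoc]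
      refine mul_le_mul_of_nonneg_left ?_ (Nat.cast_nonneg _)
      have h2 := hA p r hr i (by omega) x
      have h3 := hB (j - i) (by omega) x (closedBall_subset_closedBall hr1 hx)
      have h4 : B * ‖x - p‖ ^ (m + 1 - (j - i)) ≤ B * r ^ (i + 1) := by
        refine mul_le_mul_of_nonneg_left ?_ (by linarith)
        refine (pow_le_pow_left₀ (norm_nonneg _) hxr _).trans ?_
        exact pow_le_pow_of_le_one hr.le hr1 (by omega)
      calc ‖iteratedFDeriv ℝ i (chi p r) x‖ * ‖iteratedFDeriv ℝ (j - i) u x‖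
          ≤ (A * (r⁻¹) ^ i) * (B * r ^ (i + 1)) :=
            mul_le_mul h2 (h3.trans h4) (norm_nonneg _) (by positivity)
        _ = A * B * r * ((r⁻¹) ^ i * r ^ i) := by ring
        _ = A * B * r := by
          rw [← mul_pow, inv_mul_cancel₀ hr.ne', one_pow, mul_one]
    refine (Finset.sum_le_sum h1).trans ?_
    rw [← Finset.sum_mul]
    have h2 : (∑ i ∈ Finset.range (j + 1), (j.choose i : ℝ)) = 2 ^ j := by
      exact_mod_cast Nat.sum_range_choose j
    rw [h2]
    have h3 : (2 : ℝ) ^ j ≤ 2 ^ m := pow_le_pow_right₀ one_le_two hj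
    calc (2 : ℝ) ^ j * (A * B * r) ≤ 2 ^ m * (A * B * r) :=
          mul_le_mul_of_nonneg_right h3 (by positivity)
      _ = 2 ^ m * (A * B) * r := by ring
  · have h1 : (fun y => chi p r y * u y) =ᶠ[𝓝 x] fun _ => 0 := by
      filter_upwards [isClosed_closedBall.isOpen_compl.mem_nhds hx] with y hy
      rw [chi_zero hr fun h => hy (ball_subset_closedBall h), zero_mul]
    rw [(h1.iteratedFDeriv ℝ j).eq_of_nhds, iteratedFDeriv_fun_zero]
    simp only [Pi.zero_apply, norm_zero]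
    positivity

/-- a function which is smooth near `p` agrees near `p` with a smooth function -/
theorem exists_global {Ω : Set E2} (hΩ : IsOpen Ω) {u : E2 → ℝ} (hu : ContDiffOn ℝ ∞ u Ω)
    {p : E2} (hp : p ∈ Ω) : ∃ v : E2 → ℝ, ContDiff ℝ ∞ v ∧ ∃ r : ℝ, 0 < r ∧ ∀ x ∈ ball p r,
      v x = u x := by
  obtain ⟨r, hr, hrΩ⟩ := Metric.isOpen_iff.1 hΩ p hp
  refine ⟨fun x => chi p (r / 2) x * u x, ?_, r / 4, by positivity, fun x hx => ?_⟩
  · rw [contDiff_iff_contDiffAt]
    intro x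
    by_cases hx : x ∈ ball p r
    · exact (chi_smooth _ _).contDiffAt.mul (hu.contDiffAt (hΩ.mem_nhds (hrΩ hx)))
    · have h1 : (fun x => chi p (r / 2) x * u x) =ᶠ[𝓝 x] fun _ => 0 := by
        have h2 : x ∈ (closedBall p (r / 2))ᶜ := fun h => hx (closedBall_subset_ball (by linarith) h)
        filter_upwards [isClosed_closedBall.isOpen_compl.mem_nhds h2] with y hy
        rw [chi_zero (by positivity) fun h => hy (ball_subset_closedBall h), zero_mul]
      exact contDiffAt_const.congr_of_eventuallyEq h1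
  · have h1 : x ∈ closedBall p (r / 2 / 2) := ball_subset_closedBall (by
      rwa [show r / 2 / 2 = r / 4 by ring])
    simp only [chi_one (by positivity) h1, one_mul]

end Vale.Agent.P229.H870
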