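import Vale.Agent.P229.H870.Step
import Vale.Agent.P229.H870.Cut

/-!
# P229: a metric whose curvature vanishes to order `m - 2` at a point is flat to order `m` there
-/

open scoped ContDiff RealInnerProductSpace Topology
open Set Metric Filter

namespace Vale.Agent.P229.H870

variable {p : E2}

theorem inner_comp (x y : E2) : ⟪x, y⟫ = x 0 * y 0 + x 1 * y 1 := by
  rw [PiLp.inner_apply, Fin.sum_univ_two]
  change y 0 * x 0 + y 1 * x 1 = _
  ring

/-- the linear approximation -/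
theorem exists_base {G : Fin 2 → Fin 2 → SF}
    (hpos : (Matrix.of fun i j => (G i j).1 p).PosDef) :
    ∃ φ : Fin 2 → SF, ((dl 0 (φ 0)).1 p * (dl 1 (φ 1)).1 p -
      (dl 1 (φ 0)).1 p * (dl 0 (φ 1)).1 p ≠ 0) ∧ ∀ i j, Vo p 1 (G i j - pull2 φ i j) := by
  obtain ⟨a, ha, -⟩ := exists_frame hpos
  have ha' : ∀ i k, a i 0 * a k 0 + a i 1 * a k 1 = (G i k).1 p := fun i k => by
    rw [← inner_comp, ha]
    rfl
  have hdetp := hpos.det_pos
  rw [Matrix.det_fin_two] at hdetp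
  have hdetp' : 0 < (G 0 0).1 p * (G 1 1).1 p - (G 0 1).1 p * (G 1 0).1 p := hdetp
  let φ : Fin 2 → SF := fun c => a 0 c • cd p 0 + a 1 c • cd p 1
  have hφ : ∀ i c, (dl i (φ c)).1 p = a i c := fun i c => by
    have h1 : dl i (φ c) = a i c • (1 : SF) := by
      change dl i (a 0 c • cd p 0 + a 1 c • cd p 1) = _
      rw [map_add, map_smul, map_smul, dl_cd, dl_cd]
      obtain rfl | rfl : i = 0 ∨ i = 1 := by fin_cases i <;> simp
      · simp
      · simp
    rw [h1]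
    change a i c * 1 = _
    ring
  refine ⟨φ, ?_, fun i j => ⟨?_, fun k => trivial⟩⟩
  · rw [hφ, hφ, hφ, hφ]
    intro h0
    have h1 : (a 0 0 * a 1 1 - a 1 0 * a 0 1) * (a 0 0 * a 1 1 - a 1 0 * a 0 1) =
        (G 0 0).1 p * (G 1 1).1 p - (G 0 1).1 p * (G 1 0).1 p := by
      rw [← ha', ← ha', ← ha', ← ha']
      ring
    rw [h0, mul_zero] at h1
    linarith
  · change (G i j).1 p - ((dl i (φ 0)).1 p * (dl j (φ 0)).1 p +
      (dl i (φ 1)).1 p * (dl j (φ 1)).1 p) = 0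
    rw [hφ, hφ, hφ, hφ, ha', sub_self]

/-- **a metric is the pull-back of the Euclidean metric up to the order of its curvature plus
two** -/
theorem exists_map {G : Fin 2 → Fin 2 → SF} (hG : ∀ i j, G i j = G j i)
    (hpos : (Matrix.of fun i j => (G i j).1 p).PosDef) (k : ℕ) (hN : Vo p k (num G)) :
    ∃ φ : Fin 2 → SF, ((dl 0 (φ 0)).1 p * (dl 1 (φ 1)).1 p -
      (dl 1 (φ 0)).1 p * (dl 0 (φ 1)).1 p ≠ 0) ∧ ∀ i j, Vo p (k + 2) (G i j - pull2 φ i j) := by
  have hdet : (dt G).1 p ≠ 0 := by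
    have h1 := hpos.det_pos
    rw [Matrix.det_fin_two] at h1
    exact h1.ne'
  induction k with
  | zero =>
    obtain ⟨φ, hφ, hu⟩ := exists_base hpos
    obtain ⟨φ', h1, h2⟩ := step le_rfl hG hφ hu (fun a b hab => by omega)
    exact ⟨φ', by rwa [h1, h1, h1, h1], h2⟩
  | succ k ih =>
    obtain ⟨φ, hφ, hu⟩ := ih hN.pred
    have h0 := vo_lop hdet (k := k + 1) hu hN
    obtain ⟨φ', h1, h2⟩ := step (n := k + 2) (by omega) hG hφ hu
      (fun a b hab => dd_eq_zero h0 (by omega))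
    exact ⟨φ', by rwa [h1, h1, h1, h1], h2⟩

theorem vo_of_iter {n : ℕ} {u : SF} (h : ∀ j < n, iteratedFDeriv ℝ j u.1 p = 0) : Vo p n u := by
  induction n generalizing u with
  | zero => trivial
  | succ n ih =>
    refine ⟨?_, fun k => ih fun j hj => ?_⟩
    · have h1 := h 0 (Nat.succ_pos n)
      rwa [← norm_eq_zero, norm_iteratedFDeriv_zero, norm_eq_zero] at h1
    · have h1 : ContDiffAt ℝ ∞ (fderiv ℝ u.1) p := ((sm u).fderiv_right (by simp)).contDiffAt
      have h2 := (ContinuousLinearMap.apply ℝ ℝ (e k)).norm_iteratedFDeriv_comp_left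
        h1 (n := j) (by exact_mod_cast le_top)
      rw [norm_iteratedFDeriv_fderiv, h (j + 1) (by omega), norm_zero, mul_zero] at h2
      exact norm_eq_zero.1 (le_antisymm h2 (norm_nonneg _))

theorem iter_of_vo {j n : ℕ} {u : SF} (h : Vo p n u) (hj : j < n) :
    iteratedFDeriv ℝ j u.1 p = 0 := by
  induction j generalizing n u with
  | zero =>
    obtain ⟨m, rfl⟩ : ∃ m, n = m + 1 := ⟨n - 1, by omega⟩
    rw [← norm_eq_zero, norm_iteratedFDeriv_zero, norm_eq_zero]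
    exact h.1
  | succ j ih =>
    obtain ⟨m, rfl⟩ : ∃ m, n = m + 1 := ⟨n - 1, by omega⟩
    have h1 : fderiv ℝ u.1 = fun x =>
        (ContinuousLinearMap.toSpanSingleton ℝ (EuclideanSpace.proj 0 : E2 →L[ℝ] ℝ)) ((dl 0 u).1 x) +
        (ContinuousLinearMap.toSpanSingleton ℝ (EuclideanSpace.proj 1 : E2 →L[ℝ] ℝ))
          ((dl 1 u).1 x) := by
      funext x
      refine clm_ext fun k => ?_
      obtain rfl | rfl : k = 0 ∨ k = 1 := by fin_cases k <;> simp
      · simp [e, dl_apply, pd]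
      · simp [e, dl_apply, pd]
    have h2 : ∀ k : Fin 2, ContDiff ℝ ∞ fun x =>
        (ContinuousLinearMap.toSpanSingleton ℝ (EuclideanSpace.proj k : E2 →L[ℝ] ℝ))
          ((dl k u).1 x) := fun k => (ContinuousLinearMap.contDiff _).comp (sm (dl k u))
    have h3 : ∀ k : Fin 2, iteratedFDeriv ℝ j (fun x =>
        (ContinuousLinearMap.toSpanSingleton ℝ (EuclideanSpace.proj k : E2 →L[ℝ] ℝ))
          ((dl k u).1 x)) p = 0 := fun k => by
      have h4 := (ContinuousLinearMap.toSpanSingleton ℝ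
        (EuclideanSpace.proj k : E2 →L[ℝ] ℝ)).norm_iteratedFDeriv_comp_left
        ((sm (dl k u)).contDiffAt (x := p)) (n := j) (by exact_mod_cast le_top)
      rw [ih (h.2 k) (by omega), norm_zero, mul_zero] at h4
      exact norm_eq_zero.1 (le_antisymm h4 (norm_nonneg _))
    rw [← norm_eq_zero, ← norm_iteratedFDeriv_fderiv, h1]
    have h5 := iteratedFDeriv_add_apply (x := p) (i := j)
      ((h2 0).of_le (by exact_mod_cast le_top)).contDiffAt
      ((h2 1).of_le (by exact_mod_cast le_top)).contDiffAt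
    have h6 : ((fun x =>
        (ContinuousLinearMap.toSpanSingleton ℝ (EuclideanSpace.proj 0 : E2 →L[ℝ] ℝ)) ((dl 0 u).1 x)) +
        fun x => (ContinuousLinearMap.toSpanSingleton ℝ (EuclideanSpace.proj 1 : E2 →L[ℝ] ℝ))
          ((dl 1 u).1 x)) = fun x =>
        (ContinuousLinearMap.toSpanSingleton ℝ (EuclideanSpace.proj 0 : E2 →L[ℝ] ℝ)) ((dl 0 u).1 x) +
        (ContinuousLinearMap.toSpanSingleton ℝ (EuclideanSpace.proj 1 : E2 →L[ℝ] ℝ))
          ((dl 1 u).1 x) := rfl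
    rw [← h6, h5, h3, h3, add_zero, norm_zero]

theorem vo_congr {n : ℕ} {u v : SF} (h : u.1 =ᶠ[𝓝 p] v.1) (hu : Vo p n u) : Vo p n v :=
  vo_of_iter fun j hj => by
    rw [← (h.iteratedFDeriv ℝ j).eq_of_nhds]
    exact iter_of_vo hu hj

theorem pd_congr {f f' : E2 → ℝ} (h : f =ᶠ[𝓝 p] f') (k : Fin 2) : pd k f =ᶠ[𝓝 p] pd k f' := by
  filter_upwards [h.fderiv (𝕜 := ℝ)] with x hx
  rw [pd, pd, hx]

theorem inv_entries (M : Matrix (Fin 2) (Fin 2) ℝ) : M⁻¹ 0 0 = M 1 1 / M.det ∧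
    M⁻¹ 0 1 = -M 0 1 / M.det ∧ M⁻¹ 1 0 = -M 1 0 / M.det ∧ M⁻¹ 1 1 = M 0 0 / M.det := by
  refine ⟨?_, ?_, ?_, ?_⟩ <;>
    simp [Matrix.inv_def, Matrix.adjugate_fin_two, Ring.inverse_eq_inv', div_eq_inv_mul]

/-- the curvature in terms of global smooth functions with the same germs -/
theorem curvature_eq {Ω : Set E2} (hΩ : IsOpen Ω) {g : E2 → Matrix (Fin 2) (Fin 2) ℝ}
    (hg : IsMetricOn ∞ g Ω) (hp : p ∈ Ω) {G : Fin 2 → Fin 2 → SF}
    (h : ∀ i j, (G i j).1 =ᶠ[𝓝 p] fun x => g x i j) :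
    curvature g =ᶠ[𝓝 p] fun x => (num G).1 x / (4 * (dt G).1 x ^ 2) := by
  have h1 : ∀ i j k, (dl k (G i j)).1 =ᶠ[𝓝 p] pd k fun x => g x i j := fun i j k =>
    pd_congr (h i j) k
  have h2 : ∀ i j k l, (dl k (dl l (G i j))).1 =ᶠ[𝓝 p] pd k (pd l fun x => g x i j) :=
    fun i j k l => pd_congr (h1 i j l) k
  filter_upwards [hΩ.mem_nhds hp, h 0 0, h 0 1, h 1 0, h 1 1, h1 0 0 0, h1 0 0 1, h1 0 1 0,
    h1 0 1 1, h1 1 0 0, h1 1 0 1, h1 1 1 0, h1 1 1 1, h2 0 1 0 1, h2 1 1 0 0, h2 0 0 1 1] with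
    x hx g00 g01 g10 g11 d000 d001 d010 d011 d100 d101 d110 d111 e0101 e1100 e0011
  have hdet := (hg.posDef x hx).det_pos.ne'
  obtain ⟨i00, i01, i10, i11⟩ := inv_entries (g x)
  have hD : (g x).det = (G 0 0).1 x * (G 1 1).1 x - (G 0 1).1 x * (G 1 0).1 x := by
    rw [Matrix.det_fin_two, g00, g01, g10, g11]
  have hnum : (num G).1 x = 2 * ((G 0 0).1 x * (G 1 1).1 x - (G 0 1).1 x * (G 1 0).1 x) *
      (2 * (dl 0 (dl 1 (G 0 1))).1 x - (dl 0 (dl 0 (G 1 1))).1 x - (dl 1 (dl 1 (G 0 0))).1 x) +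
      (qop G).1 x := rfl
  have hdt : (dt G).1 x = (G 0 0).1 x * (G 1 1).1 x - (G 0 1).1 x * (G 1 0).1 x := rfl
  have hgam : ∀ k l j, (gam G k l j).1 x = (dl k (G l j)).1 x + (dl l (G k j)).1 x -
      (dl j (G k l)).1 x := fun _ _ _ => rfl
  have hq : (qop G).1 x = (G 1 1).1 x * ((gam G 0 1 0).1 x * (gam G 0 1 0).1 x -
      (gam G 0 0 0).1 x * (gam G 1 1 0).1 x) -
    (G 0 1).1 x * ((gam G 0 1 0).1 x * (gam G 0 1 1).1 x -
      (gam G 0 0 0).1 x * (gam G 1 1 1).1 x) -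
    (G 1 0).1 x * ((gam G 0 1 1).1 x * (gam G 0 1 0).1 x -
      (gam G 0 0 1).1 x * (gam G 1 1 0).1 x) +
    (G 0 0).1 x * ((gam G 0 1 1).1 x * (gam G 0 1 1).1 x -
      (gam G 0 0 1).1 x * (gam G 1 1 1).1 x) := rfl
  simp only [curvature, Fin.sum_univ_two, i00, i01, i10, i11, chr]
  rw [hnum, hdt, hq]
  simp only [hgam]
  rw [d000, d001, d010, d011, d100, d101, d110, d111, e0101, e1100, e0011, ← hD, g00, g01, g10,
    g11]
  field_simp
  ring

/-- **a metric whose curvature vanishes to order `m - 2` at a point is flat to order `m` there** -/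
theorem flat_of_curvature {Ω : Set E2} (hΩ : IsOpen Ω) {g : E2 → Matrix (Fin 2) (Fin 2) ℝ}
    (hg : IsMetricOn ∞ g Ω) (hp : p ∈ Ω) {m : ℕ}
    (hK : ∀ j, j + 2 ≤ m → iteratedFDeriv ℝ j (curvature g) p = 0) : FlatToOrder m g p := by
  choose v hv s hs hvs using fun i k => exists_global hΩ (hg.contDiffOn i k) hp
  let G : Fin 2 → Fin 2 → SF := fun i j => ⟨v (min i j) (max i j), hv _ _⟩
  have hG : ∀ i j, G i j = G j i := fun i j => by
    simp only [G, min_comm i j, max_comm i j]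
  have hgerm : ∀ i j, (G i j).1 =ᶠ[𝓝 p] fun x => g x i j := fun i j => by
    filter_upwards [hΩ.mem_nhds hp, ball_mem_nhds p (hs (min i j) (max i j))] with x hx hx'
    change v (min i j) (max i j) x = g x i j
    rw [hvs _ _ x hx']
    rcases le_total i j with h1 | h1
    · rw [min_eq_left h1, max_eq_right h1]
    · rw [min_eq_right h1, max_eq_left h1]
      have := (hg.posDef x hx).isHermitian.apply i j
      simpa using this
  have hpos : (Matrix.of fun i j => (G i j).1 p).PosDef := by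
    have h1 : (Matrix.of fun i j => (G i j).1 p) = g p := by
      ext i j
      exact (hgerm i j).eq_of_nhds
    rw [h1]
    exact hg.posDef p hp
  have hdet : (dt G).1 p ≠ 0 := by
    have h1 := hpos.det_pos
    rw [Matrix.det_fin_two] at h1
    exact h1.ne'
  -- a global function with the germ of the curvature
  have hO : IsOpen {x | (dt G).1 x ≠ 0} := isOpen_ne_fun (sm (dt G)).continuous continuous_const
  obtain ⟨κ, hκ, r, hr, hκr⟩ := exists_global (u := fun x => (num G).1 x / (4 * (dt G).1 x ^ 2)) hO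
    ((sm (num G)).contDiffOn.div (contDiffOn_const.mul ((sm (dt G)).contDiffOn.pow 2))
      fun x hx => by
        have : (dt G).1 x ≠ 0 := hx
        positivity) hdet
  let κ' : SF := ⟨κ, hκ⟩
  have hκ1 : κ'.1 =ᶠ[𝓝 p] curvature g := by
    filter_upwards [ball_mem_nhds p hr, curvature_eq hΩ hg hp hgerm] with x hx hx'
    rw [hx']
    exact hκr x hx
  have hκ2 : Vo p (m - 1) κ' := vo_of_iter fun j hj => by
    rw [(hκ1.iteratedFDeriv ℝ j).eq_of_nhds]
    exact hK j (by omega)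
  have hN : Vo p (m - 1) (num G) := by
    refine vo_congr ?_ (hκ2.mul (4 * dt G ^ 2))
    filter_upwards [ball_mem_nhds p hr, hO.mem_nhds hdet] with x hx hx'
    change κ x * (4 * (dt G).1 x ^ 2) = (num G).1 x
    rw [hκr x hx]
    have : (dt G).1 x ≠ 0 := hx'
    field_simp
  obtain ⟨φ, -, hφ⟩ := exists_map hG hpos (m - 1) hN
  let ψ : E2 → E2 := fun x => (φ 0).1 x • e 0 + (φ 1).1 x • e 1
  have hψd : ∀ (x : E2) (i : Fin 2), fderiv ℝ ψ x (e i) =
      (dl i (φ 0)).1 x • e 0 + (dl i (φ 1)).1 x • e 1 := fun x i => by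
    have h1 : HasFDerivAt ψ _ x := ((dfa (φ 0) x).hasFDerivAt.smul_const (e 0)).add
      ((dfa (φ 1) x).hasFDerivAt.smul_const (e 1))
    rw [h1.fderiv]
    rfl
  refine ⟨ψ, ((sm (φ 0)).smul contDiff_const).add ((sm (φ 1)).smul contDiff_const),
    fun j hj i k => ?_⟩
  have h1 : (fun x => g x i k - ⟪fderiv ℝ ψ x (EuclideanSpace.single i 1),
      fderiv ℝ ψ x (EuclideanSpace.single k 1)⟫) =ᶠ[𝓝 p] (G i k - pull2 φ i k).1 := by
    filter_upwards [hgerm i k] with x hx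
    have h2 : ∀ a b c d : ℝ, ⟪a • e 0 + b • e 1, c • e 0 + d • e 1⟫ = a * c + b * d :=
      fun a b c d => by
        rw [inner_comp]
        simp [e]
    rw [hψd, hψd, h2, ← hx]
    rfl
  rw [(h1.iteratedFDeriv ℝ j).eq_of_nhds]
  exact iter_of_vo (hφ i k) (by omega)

end Vale.Agent.P229.H870
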