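import Vale.Agent.P229.H870.Glue
import Vale.Agent.P229.H870.Order
import Vale.Agent.P229.H832.Main

/-!
# P229: metrics without local realization near every metric
-/

open scoped ContDiff RealInnerProductSpace Topology
open Set Metric Filter

namespace Vale.Agent.P229.H870

open Vale.Agent.P229.H832 (BadAt exists_bad)

/-- **metrics without local realization near every metric** -/
theorem main {Ω : Set E2} (hΩ : IsOpen Ω) {g₀ : E2 → Matrix (Fin 2) (Fin 2) ℝ}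
    (hg₀ : IsMetricOn ∞ g₀ Ω) {m : ℕ} {P V : Set E2} (hPΩ : P ⊆ Ω)
    (hP : ∀ x ∈ Ω, ∃ U ∈ 𝓝 x, (P ∩ U).Finite) (hV : IsOpen V) (hPV : P ⊆ V)
    (hK : ∀ p ∈ P, ∀ j, j + 2 ≤ m → iteratedFDeriv ℝ j (curvature g₀) p = 0) {ε : E2 → ℝ}
    (hε : ContinuousOn ε Ω) (hε0 : ∀ x ∈ Ω, 0 < ε x) :
    ∃ N : Set E2, IsOpen N ∧ P ⊆ N ∧ N ⊆ V ∩ Ω ∧
      ∀ F ⊆ N, (∃ C, IsClosed C ∧ F = C ∩ Ω) → interior F = ∅ →
      ∃ g : E2 → Matrix (Fin 2) (Fin 2) ℝ, IsMetricOn ∞ g Ω ∧ (∀ x ∉ V, g x = g₀ x) ∧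
        (∀ j ≤ m, ∀ (i k : Fin 2), ∀ x ∈ Ω,
          ‖iteratedFDeriv ℝ j (fun y => g y i k - g₀ y i k) x‖ ≤ ε x) ∧
        ∀ q ∈ F, ∀ n : WithTop ℕ∞, 4 ≤ n → ¬ LocallyRealizableAt n g q := by
  obtain ⟨φ₀, hφ₀, hbad⟩ := exists_bad
  exact glue hφ₀ hbad hΩ hg₀ hPΩ hP hV hPV
    (fun p hp => flat_of_curvature hΩ hg₀ (hPΩ hp) (hK p hp)) hε hε0

/-- the case of one point -/
theorem main_point {Ω : Set E2} (hΩ : IsOpen Ω) {g₀ : E2 → Matrix (Fin 2) (Fin 2) ℝ}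
    (hg₀ : IsMetricOn ∞ g₀ Ω) {p : E2} (hp : p ∈ Ω) {m : ℕ}
    (hK : ∀ j, j + 2 ≤ m → iteratedFDeriv ℝ j (curvature g₀) p = 0)
    {V : Set E2} (hV : IsOpen V) (hpV : p ∈ V) {ε : ℝ} (hε : 0 < ε) :
    ∃ g : E2 → Matrix (Fin 2) (Fin 2) ℝ, IsMetricOn ∞ g Ω ∧ (∀ x ∉ V, g x = g₀ x) ∧
      (∀ j ≤ m, ∀ (i k : Fin 2), ∀ x ∈ Ω,
        ‖iteratedFDeriv ℝ j (fun y => g y i k - g₀ y i k) x‖ ≤ ε) ∧
      ∀ n : WithTop ℕ∞, 4 ≤ n → ¬ LocallyRealizableAt n g p := by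
  obtain ⟨N, -, hN1, -, hN2⟩ := main hΩ hg₀ (m := m) (P := {p}) (singleton_subset_iff.2 hp)
    (fun x _ => ⟨univ, univ_mem, (finite_singleton p).inter_of_left _⟩) hV
    (singleton_subset_iff.2 hpV) (fun q hq j hj => by
      rw [mem_singleton_iff.1 hq]
      exact hK j hj) (ε := fun _ => ε) continuousOn_const fun _ _ => hε
  obtain ⟨g, h1, h2, h3, h4⟩ := hN2 {p} hN1 ⟨{p}, isClosed_singleton,
    (inter_eq_left.2 (singleton_subset_iff.2 hp)).symm⟩ (interior_singleton p)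
  exact ⟨g, h1, h2, h3, h4 p (mem_singleton p)⟩

end Vale.Agent.P229.H870
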