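import Vale.Agent.P229.H870.Local

/-!
# P229: bad points near the points of a discrete set, arbitrary metric, Whitney topology
-/

open scoped ContDiff RealInnerProductSpace Topology
open Set Metric Filter

namespace Vale.Agent.P229.H870

open Vale.Agent.P229.H832 (BadAt cf)

/-- separation of the points of a set without accumulation points -/
theorem exists_radii {Ω P V : Set E2} (hΩ : IsOpen Ω) (hPΩ : P ⊆ Ω)
    (hP : ∀ x ∈ Ω, ∃ U ∈ 𝓝 x, (P ∩ U).Finite) (hV : IsOpen V) (hPV : P ⊆ V) :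
    ∃ R : E2 → ℝ, (∀ p ∈ P, 0 < R p) ∧ (∀ p ∈ P, closedBall p (R p) ⊆ V ∩ Ω) ∧
      (∀ p ∈ P, ∀ q ∈ P, p ≠ q → Disjoint (closedBall p (R p)) (closedBall q (R q))) ∧
      ∀ x ∈ Ω, ∃ W ∈ 𝓝 x, ∀ p ∈ P, x ∉ closedBall p (R p) → Disjoint W (closedBall p (R p)) := by
  have h1 : ∀ p ∈ P, ∃ R : ℝ, 0 < R ∧ closedBall p R ⊆ V ∩ Ω ∧
      ∀ q ∈ P, q ≠ p → 3 * R ≤ dist p q := by
    intro p hp
    obtain ⟨U, hU, hfin⟩ := hP p (hPΩ hp)
    have hfin' : ((P ∩ U) \ {p}).Finite := hfin.subset sdiff_subset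
    have h2 : U ∩ ((P ∩ U) \ {p})ᶜ ∩ (V ∩ Ω) ∈ 𝓝 p :=
      inter_mem (inter_mem hU (hfin'.isClosed.isOpen_compl.mem_nhds fun h => h.2 rfl))
        ((hV.inter hΩ).mem_nhds ⟨hPV hp, hPΩ hp⟩)
    obtain ⟨δ, hδ, hδs⟩ := Metric.mem_nhds_iff.1 h2
    refine ⟨δ / 3, by positivity, fun x hx =>
      (hδs (closedBall_subset_ball (by linarith) hx)).2, fun q hq hqp => ?_⟩
    by_contra hlt
    have h3 : q ∈ ball p δ := by
      rw [mem_ball, dist_comm]
      linarith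
    exact (hδs h3).1.2 ⟨⟨hq, (hδs h3).1.1⟩, hqp⟩
  choose! R hR0 hRV hR3 using h1
  refine ⟨R, hR0, hRV, fun p hp q hq hpq => ?_, fun x hx => ?_⟩
  · refine closedBall_disjoint_closedBall ?_
    have h2 := hR3 p hp q hq (Ne.symm hpq)
    have h3 := hR3 q hq p hp hpq
    rw [dist_comm] at h3
    have := hR0 p hp
    linarith
  · obtain ⟨U, hU, hfin⟩ := hP x hx
    obtain ⟨δ, hδ, hδU⟩ := Metric.mem_nhds_iff.1 hU
    -- the balls which meet a small ball
    let T : Set E2 := {p | p ∈ P ∧ (closedBall p (R p) ∩ ball x (δ / 4)).Nonempty}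
    have hT : T.Finite := by
      by_cases hsub : T.Subsingleton
      · exact hsub.finite
      · refine hfin.subset fun p hp => ⟨hp.1, hδU ?_⟩
        obtain ⟨q, hq, hqp⟩ : ∃ q ∈ T, q ≠ p := by
          by_contra hno
          push Not at hno
          exact hsub fun a ha b hb => (hno a ha).trans (hno b hb).symm
        obtain ⟨y, hy1, hy2⟩ := hp.2
        obtain ⟨z, hz1, hz2⟩ := hq.2
        have h2 := hR3 p hp.1 q hq.1 hqp
        have h3 := hR3 q hq.1 p hp.1 (Ne.symm hqp)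
        rw [mem_closedBall] at hy1 hz1
        rw [mem_ball] at hy2 hz2 ⊢
        have h4 : dist p q ≤ dist p y + dist y x + dist x z + dist z q := by
          linarith [dist_triangle p y q, dist_triangle y x q, dist_triangle x z q]
        have h5 : dist p x ≤ dist p y + dist y x := dist_triangle _ _ _
        rw [dist_comm p y] at h4 h5
        rw [dist_comm x z] at h4
        rw [dist_comm q p] at h3
        linarith
    have hcl : IsClosed (⋃ p ∈ T ∩ {p | x ∉ closedBall p (R p)}, closedBall p (R p)) :=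
      (hT.inter_of_left _).isClosed_biUnion fun _ _ => isClosed_closedBall
    refine ⟨ball x (δ / 4) ∩ (⋃ p ∈ T ∩ {p | x ∉ closedBall p (R p)}, closedBall p (R p))ᶜ,
      inter_mem (ball_mem_nhds x (by positivity)) (hcl.isOpen_compl.mem_nhds ?_),
      fun p hp hxp => ?_⟩
    · intro h
      obtain ⟨p, hp, hxp⟩ := mem_iUnion₂.1 h
      exact hp.2 hxp
    · rw [Set.disjoint_left]
      rintro y ⟨hy1, hy2⟩ hy3
      exact hy2 (mem_iUnion₂.2 ⟨p, ⟨⟨hp, y, hy3, hy1⟩, hxp⟩, hy3⟩)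

variable {φ₀ : E2 → ℝ} (hφ₀ : ContDiff ℝ ∞ φ₀)
    (hbad : BadAt (fun x => Matrix.diagonal fun _ => Real.exp (2 * φ₀ x)) 0)

include hφ₀ hbad in
/-- **bad points near every metric** -/
theorem glue {Ω : Set E2} (hΩ : IsOpen Ω) {g₀ : E2 → Matrix (Fin 2) (Fin 2) ℝ}
    (hg₀ : IsMetricOn ∞ g₀ Ω) {m : ℕ} {P V : Set E2} (hPΩ : P ⊆ Ω)
    (hP : ∀ x ∈ Ω, ∃ U ∈ 𝓝 x, (P ∩ U).Finite) (hV : IsOpen V) (hPV : P ⊆ V)
    (hm : ∀ p ∈ P, FlatToOrder m g₀ p) {ε : E2 → ℝ} (hε : ContinuousOn ε Ω)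
    (hε0 : ∀ x ∈ Ω, 0 < ε x) :
    ∃ N : Set E2, IsOpen N ∧ P ⊆ N ∧ N ⊆ V ∩ Ω ∧
      ∀ F ⊆ N, (∃ C, IsClosed C ∧ F = C ∩ Ω) → interior F = ∅ →
      ∃ g : E2 → Matrix (Fin 2) (Fin 2) ℝ, IsMetricOn ∞ g Ω ∧ (∀ x ∉ V, g x = g₀ x) ∧
        (∀ j ≤ m, ∀ (i k : Fin 2), ∀ x ∈ Ω,
          ‖iteratedFDeriv ℝ j (fun y => g y i k - g₀ y i k) x‖ ≤ ε x) ∧
        ∀ q ∈ F, BadAt g q := by
  obtain ⟨R, hR0, hRV, hRd, hRW⟩ := exists_radii hΩ hPΩ hP hV hPV
  -- the smallest value of `ε` on the balls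
  have h1 : ∀ p ∈ P, ∃ η : ℝ, 0 < η ∧ ∀ x ∈ closedBall p (R p), η ≤ ε x := fun p hp => by
    obtain ⟨x, hx1, hx2⟩ := (isCompact_closedBall p (R p)).exists_isMinOn
      ⟨p, mem_closedBall_self (hR0 p hp).le⟩ (hε.mono fun y hy => (hRV p hp hy).2)
    exact ⟨ε x, hε0 x (hRV p hp hx1).2, fun y hy => hx2 hy⟩
  choose! η hη0 hη using h1
  have h2 : ∀ p ∈ P, ∃ r : ℝ, 0 < r ∧ closedBall p r ⊆ ball p (R p) ∩ Ω ∧
      ∀ F ⊆ closedBall p r, IsClosed F → interior F = ∅ →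
      ∃ g : E2 → Matrix (Fin 2) (Fin 2) ℝ, IsMetricOn ∞ g Ω ∧ (∀ x ∉ ball p (R p), g x = g₀ x) ∧
        (∀ j ≤ m, ∀ (i k : Fin 2) (x : E2),
          ‖iteratedFDeriv ℝ j (fun y => g y i k - g₀ y i k) x‖ ≤ η p) ∧
        ∀ q ∈ F, BadAt g q := fun p hp =>
    local_main hφ₀ hbad hΩ hg₀ (hPΩ hp) (hm p hp) isOpen_ball (mem_ball_self (hR0 p hp))
      (hη0 p hp)
  choose! r hr0 hrR hr using h2
  refine ⟨⋃ p ∈ P, ball p (r p), isOpen_biUnion fun _ _ => isOpen_ball,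
    fun p hp => mem_iUnion₂.2 ⟨p, hp, mem_ball_self (hr0 p hp)⟩, ?_, ?_⟩
  · intro x hx
    obtain ⟨p, hp, hxp⟩ := mem_iUnion₂.1 hx
    exact hRV p hp (ball_subset_closedBall ((hrR p hp) (ball_subset_closedBall hxp)).1)
  rintro F hFN ⟨C, hC, hFC⟩ hi
  have h3 : ∀ p ∈ P, ∃ g : E2 → Matrix (Fin 2) (Fin 2) ℝ, IsMetricOn ∞ g Ω ∧
      (∀ x ∉ ball p (R p), g x = g₀ x) ∧
        (∀ j ≤ m, ∀ (i k : Fin 2) (x : E2),
          ‖iteratedFDeriv ℝ j (fun y => g y i k - g₀ y i k) x‖ ≤ η p) ∧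
        ∀ q ∈ F ∩ closedBall p (r p), BadAt g q := by
    intro p hp
    refine hr p hp _ inter_subset_right ?_ ?_
    · have : F ∩ closedBall p (r p) = C ∩ closedBall p (r p) := by
        rw [hFC]
        ext x
        exact ⟨fun h => ⟨h.1.1, h.2⟩, fun h => ⟨⟨h.1, (hrR p hp h.2).2⟩, h.2⟩⟩
      rw [this]
      exact hC.inter isClosed_closedBall
    · exact subset_empty_iff.1 (hi ▸ interior_mono inter_subset_left)
  choose! gp hgp1 hgp2 hgp3 hgp4 using h3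
  classical
  let g : E2 → Matrix (Fin 2) (Fin 2) ℝ := fun x =>
    if h : ∃ p ∈ P, x ∈ closedBall p (R p) then gp h.choose x else g₀ x
  have hga : ∀ p ∈ P, ∀ x ∈ closedBall p (R p), g x = gp p x := by
    intro p hp x hx
    have h : ∃ p ∈ P, x ∈ closedBall p (R p) := ⟨p, hp, hx⟩
    have h4 : h.choose = p := by
      by_contra hne
      exact (Set.disjoint_left.1 (hRd _ h.choose_spec.1 p hp hne)) h.choose_spec.2 hx
    change (if h : ∃ p ∈ P, x ∈ closedBall p (R p) then gp h.choose x else g₀ x) = _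
    rw [dif_pos h, h4]
  have hgb : ∀ x, (∀ p ∈ P, x ∉ closedBall p (R p)) → g x = g₀ x := by
    intro x hx
    change (if h : ∃ p ∈ P, x ∈ closedBall p (R p) then gp h.choose x else g₀ x) = _
    rw [dif_neg]
    rintro ⟨p, hp, hxp⟩
    exact hx p hp hxp
  have hgc : ∀ p ∈ P, ∀ x ∈ closedBall p (R p), g =ᶠ[𝓝 x] gp p := by
    intro p hp x hx
    obtain ⟨W, hW, hWd⟩ := hRW x (hRV p hp hx).2
    filter_upwards [hW] with y hy
    by_cases hyp : y ∈ closedBall p (R p)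
    · exact hga p hp y hyp
    · rw [hgp2 p hp y fun h => hyp (ball_subset_closedBall h)]
      refine hgb y fun q hq hyq => ?_
      by_cases hqp : q = p
      · rw [hqp] at hyq
        exact hyp hyq
      · refine Set.disjoint_left.1 (hWd q hq fun hxq => ?_) hy hyq
        exact Set.disjoint_left.1 (hRd q hq p hp hqp) hxq hx
  have hgd : ∀ x ∈ Ω, (∀ p ∈ P, x ∉ closedBall p (R p)) → g =ᶠ[𝓝 x] g₀ := by
    intro x hx hxp
    obtain ⟨W, hW, hWd⟩ := hRW x hx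
    filter_upwards [hW] with y hy
    exact hgb y fun p hp hyp => Set.disjoint_left.1 (hWd p hp (hxp p hp)) hy hyp
  refine ⟨g, ⟨fun i k x hx => ?_, fun x hx => ?_⟩, fun x hx => ?_, fun j hj i k x hx => ?_,
    fun q hq => ?_⟩
  · by_cases h : ∃ p ∈ P, x ∈ closedBall p (R p)
    · obtain ⟨p, hp, hxp⟩ := h
      have h4 : (fun y => g y i k) =ᶠ[𝓝 x] fun y => gp p y i k := by
        filter_upwards [hgc p hp x hxp] with y hy
        rw [hy]
      exact ((((hgp1 p hp).contDiffOn i k).contDiffAt (hΩ.mem_nhds hx)).congr_of_eventuallyEq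
        h4).contDiffWithinAt
    · push Not at h
      have h4 : (fun y => g y i k) =ᶠ[𝓝 x] fun y => g₀ y i k := by
        filter_upwards [hgd x hx h] with y hy
        rw [hy]
      exact (((hg₀.contDiffOn i k).contDiffAt (hΩ.mem_nhds hx)).congr_of_eventuallyEq
        h4).contDiffWithinAt
  · by_cases h : ∃ p ∈ P, x ∈ closedBall p (R p)
    · obtain ⟨p, hp, hxp⟩ := h
      rw [hga p hp x hxp]
      exact (hgp1 p hp).posDef x hx
    · push Not at h
      rw [hgb x h]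
      exact hg₀.posDef x hx
  · exact hgb x fun p hp hxp => hx (hRV p hp hxp).1
  · by_cases h : ∃ p ∈ P, x ∈ closedBall p (R p)
    · obtain ⟨p, hp, hxp⟩ := h
      have h4 : (fun y => g y i k - g₀ y i k) =ᶠ[𝓝 x] fun y => gp p y i k - g₀ y i k := by
        filter_upwards [hgc p hp x hxp] with y hy
        rw [hy]
      rw [(h4.iteratedFDeriv ℝ j).eq_of_nhds]
      exact (hgp3 p hp j hj i k x).trans (hη p hp x hxp)
    · push Not at h
      have h4 : (fun y => g y i k - g₀ y i k) =ᶠ[𝓝 x] fun _ => 0 := by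
        filter_upwards [hgd x hx h] with y hy
        rw [hy, sub_self]
      rw [(h4.iteratedFDeriv ℝ j).eq_of_nhds, iteratedFDeriv_fun_zero]
      simpa using (hε0 x hx).le
  · obtain ⟨p, hp, hqp⟩ := mem_iUnion₂.1 (hFN hq)
    have hq1 : q ∈ closedBall p (r p) := ball_subset_closedBall hqp
    have hq2 : q ∈ closedBall p (R p) := ball_subset_closedBall (hrR p hp hq1).1
    intro n hn hreal
    exact hgp4 p hp q ⟨hq, hq1⟩ n hn (H832.congr hreal (hgc p hp q hq2))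

end Vale.Agent.P229.H870
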