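import Vale.Agent.P229.H870.Jet
import Vale.Agent.P229.H969.Pts

/-!
# P229: the pulled back metric
-/

open scoped ContDiff RealInnerProductSpace Topology
open Set Metric Filter

namespace Vale.Agent.P229.H870

open Vale.Agent.P229.H832 (BadAt cf isMetricOn_cf exists_sum bad_closure)

/-- the coefficients of the pull-back of the Euclidean metric -/
noncomputable def pb (ψ : E2 → E2) (i k : Fin 2) (x : E2) : ℝ :=
  ⟪fderiv ℝ ψ x (e i), fderiv ℝ ψ x (e k)⟫

theorem pb_smooth {ψ : E2 → E2} (hψ : ContDiff ℝ ∞ ψ) (i k : Fin 2) : ContDiff ℝ ∞ (pb ψ i k) := by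
  have h1 : ContDiff ℝ ∞ (fderiv ℝ ψ) := hψ.fderiv_right (by simp)
  exact (h1.clm_apply contDiff_const).inner ℝ (h1.clm_apply contDiff_const)

theorem dot_expand (M : Matrix (Fin 2) (Fin 2) ℝ) (v : Fin 2 → ℝ) :
    star v ⬝ᵥ (M.mulVec v) = v 0 * v 0 * M 0 0 + v 0 * v 1 * M 0 1 + v 1 * v 0 * M 1 0 +
      v 1 * v 1 * M 1 1 := by
  simp [Matrix.mulVec, dotProduct, Fin.sum_univ_two]
  ring

theorem pb_posDef {ψ : E2 → E2} {x : E2} (h : (fderiv ℝ ψ x).IsInvertible) :
    (Matrix.of fun i k => pb ψ i k x).PosDef := by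
  refine Matrix.PosDef.of_dotProduct_mulVec_pos ?_ ?_
  · ext i k
    simp [Matrix.conjTranspose_apply, pb, real_inner_comm]
  · intro v hv
    obtain ⟨L, hL⟩ := h
    have h1 : star v ⬝ᵥ ((Matrix.of fun i k => pb ψ i k x).mulVec v) =
        ⟪L (WithLp.toLp 2 v), L (WithLp.toLp 2 v)⟫ := by
      rw [dot_expand]
      have h2 := inner_expand (L : E2 →L[ℝ] E2) (WithLp.toLp 2 v) (WithLp.toLp 2 v)
      change ⟪L (WithLp.toLp 2 v), L (WithLp.toLp 2 v)⟫ = _ at h2
      rw [h2, hL]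
      rfl
    rw [h1]
    refine real_inner_self_pos.2 fun h3 => hv ?_
    have h4 : (WithLp.toLp 2 v : E2) = 0 := by
      have := congrArg L.symm h3
      rwa [L.symm_apply_apply, map_zero] at this
    have h5 := congrArg WithLp.ofLp h4
    simpa using h5

/-- the derivative is invertible if the pulled back form is positive definite -/
theorem invertible_of_posDef {ψ : E2 → E2} {x : E2} {G : Matrix (Fin 2) (Fin 2) ℝ} (hG : G.PosDef)
    (h : ∀ i k, pb ψ i k x = G i k) : (fderiv ℝ ψ x).IsInvertible := by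
  have hinj : Function.Injective (fderiv ℝ ψ x : E2 →ₗ[ℝ] E2) := by
    refine (injective_iff_map_eq_zero _).2 fun v hv => ?_
    by_contra hne
    have h1 : (v : E2).ofLp ≠ 0 := fun h2 => hne (by
      ext i
      exact congrFun h2 i)
    have h2 := hG.dotProduct_mulVec_pos h1
    rw [dot_expand, ← h, ← h, ← h, ← h] at h2
    have h3 := inner_expand (fderiv ℝ ψ x) v v
    have h4 : fderiv ℝ ψ x v = 0 := hv
    rw [h4, inner_zero_left] at h3
    simp only [pb] at h2
    linarith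
  refine ⟨(LinearEquiv.ofInjectiveEndo (fderiv ℝ ψ x : E2 →ₗ[ℝ] E2)
    hinj).toContinuousLinearEquiv, ?_⟩
  ext v
  rfl

/-- a bad conformal factor close to one -/
theorem exists_factor {φ₀ : E2 → ℝ} (hφ₀ : ContDiff ℝ ∞ φ₀)
    (hbad : BadAt (fun x => Matrix.diagonal fun _ => Real.exp (2 * φ₀ x)) 0)
    {F : Set E2} (hF : IsClosed F) (hi : interior F = ∅) (m : ℕ) {ε : ℝ} (hε : 0 < ε) :
    ∃ φ : E2 → ℝ, ContDiff ℝ ∞ φ ∧ (∀ x, -1 < φ x) ∧
      (∀ j ≤ m, ∀ x, ‖iteratedFDeriv ℝ j φ x‖ ≤ ε) ∧ ∀ z ∈ F, BadAt (cf φ) z := by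
  rcases F.eq_empty_or_nonempty with hne | hne
  · refine ⟨fun _ => 0, contDiff_const, fun _ => by norm_num, fun j _ x => ?_, fun z hz => ?_⟩
    · rw [iteratedFDeriv_fun_zero]
      simpa using hε.le
    · rw [hne] at hz
      exact absurd hz (notMem_empty z)
  · obtain ⟨p, r, hr, -, -, hd, hdense⟩ := H969.exists_discs hF hi hne isOpen_univ (subset_univ F)
    obtain ⟨φ, h1, h2, -, h4, h5⟩ := exists_sum hφ₀ hbad hr hd m
      (ε := fun _ => ε) continuous_const fun _ => hε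
    refine ⟨φ, h1, h2, h4, fun z hz => bad_closure fun U hU hzU => ?_⟩
    obtain ⟨n, hn⟩ := hdense z hz U hU hzU
    exact ⟨p n, hn, h5 n⟩

end Vale.Agent.P229.H870
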