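import Vale.Agent.P229.H870.Pull

/-!
# P229: metrics which are flat to some order at a point; frames
-/

open scoped ContDiff RealInnerProductSpace Topology
open Set Metric Filter

namespace Vale.Agent.P229.H870

/-- The metric `g` is flat to order `m` at `p`: all derivatives at `p` up to the order `m` of the
coefficients of `g` are those of the pull-back of the Euclidean metric by a smooth map `ψ`. -/
def FlatToOrder (m : ℕ) (g : E2 → Matrix (Fin 2) (Fin 2) ℝ) (p : E2) : Prop :=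
  ∃ ψ : E2 → E2, ContDiff ℝ ∞ ψ ∧ ∀ j ≤ m, ∀ i k : Fin 2,
    iteratedFDeriv ℝ j (fun x => g x i k - ⟪fderiv ℝ ψ x (EuclideanSpace.single i 1),
      fderiv ℝ ψ x (EuclideanSpace.single k 1)⟫) p = 0

theorem inner2 (a b c d : ℝ) : ⟪(!₂[a, b] : E2), !₂[c, d]⟫ = a * c + b * d := by
  rw [PiLp.inner_apply, Fin.sum_univ_two]
  change c * a + d * b = _
  ring

/-- a frame with given inner products -/
theorem exists_frame {G : Matrix (Fin 2) (Fin 2) ℝ} (hG : G.PosDef) :
    ∃ a : Fin 2 → E2, (∀ i k, ⟪a i, a k⟫ = G i k) ∧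
      ∀ s : Fin 2 → ℝ, ∃ w : E2, ∀ j, ⟪w, a j⟫ = s j := by
  have hsym : G 1 0 = G 0 1 := by
    have := hG.isHermitian.apply 0 1
    simpa using this
  have ha : 0 < G 0 0 := hG.diag_pos
  have hdet : 0 < G 0 0 * G 1 1 - G 0 1 * G 0 1 := by
    have := hG.det_pos
    rwa [Matrix.det_fin_two, hsym] at this
  set A := Real.sqrt (G 0 0) with hA
  have hA0 : 0 < A := Real.sqrt_pos.2 ha
  have hAA : A * A = G 0 0 := Real.mul_self_sqrt ha.le
  have hd : 0 < G 1 1 - G 0 1 * G 0 1 / G 0 0 := by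
    rw [sub_pos, div_lt_iff₀ ha]
    linarith
  set D := Real.sqrt (G 1 1 - G 0 1 * G 0 1 / G 0 0) with hD
  have hD0 : 0 < D := Real.sqrt_pos.2 hd
  have hDD : D * D = G 1 1 - G 0 1 * G 0 1 / G 0 0 := Real.mul_self_sqrt hd.le
  refine ⟨![!₂[A, 0], !₂[G 0 1 / A, D]], ?_, fun s => ?_⟩
  · have h00 : ⟪(!₂[A, 0] : E2), !₂[A, 0]⟫ = G 0 0 := by
      rw [inner2, hAA, mul_zero, add_zero]
    have h01 : ⟪(!₂[A, 0] : E2), !₂[G 0 1 / A, D]⟫ = G 0 1 := by
      rw [inner2]
      field_simp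
      ring
    have h11 : ⟪(!₂[G 0 1 / A, D] : E2), !₂[G 0 1 / A, D]⟫ = G 1 1 := by
      rw [inner2]
      have h1 : G 0 1 / A * (G 0 1 / A) = G 0 1 * G 0 1 / G 0 0 := by
        rw [← hAA]
        field_simp
      linarith
    intro i k
    fin_cases i <;> fin_cases k
    · exact h00
    · exact h01
    · change ⟪(!₂[G 0 1 / A, D] : E2), !₂[A, 0]⟫ = G 1 0
      rw [real_inner_comm, hsym]
      exact h01
    · exact h11
  · refine ⟨!₂[s 0 / A, (s 1 - s 0 * G 0 1 / G 0 0) / D], fun j => ?_⟩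
    fin_cases j
    · change ⟪(!₂[s 0 / A, (s 1 - s 0 * G 0 1 / G 0 0) / D] : E2), !₂[A, 0]⟫ = s 0
      rw [inner2]
      field_simp
      ring
    · change ⟪(!₂[s 0 / A, (s 1 - s 0 * G 0 1 / G 0 0) / D] : E2), !₂[G 0 1 / A, D]⟫ = s 1
      rw [inner2]
      have h1 : s 0 / A * (G 0 1 / A) = s 0 * G 0 1 / G 0 0 := by
        rw [← hAA]
        field_simp
      have h2 : (s 1 - s 0 * G 0 1 / G 0 0) / D * D = s 1 - s 0 * G 0 1 / G 0 0 := by
        field_simp
      linarith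

theorem clm_ext {E : Type*} [NormedAddCommGroup E] [NormedSpace ℝ E] {L M : E2 →L[ℝ] E}
    (h : ∀ k, L (e k) = M (e k)) : L = M := by
  ext v
  rw [expand v, map_add, map_add, map_smul, map_smul, map_smul, map_smul, h, h]

end Vale.Agent.P229.H870
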