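import Vale.Agent.P229.H870.Gram
import Vale.Agent.P229.H870.Cut

/-!
# P229: bad points near a point of an arbitrary metric
-/

open scoped ContDiff RealInnerProductSpace Topology
open Set Metric Filter

namespace Vale.Agent.P229.H870

open Vale.Agent.P229.H832 (BadAt cf)

/-- a local diffeomorphism maps small closed sets without interior to such sets -/
theorem exists_chart {ψ : E2 → E2} (hψ : ContDiff ℝ ∞ ψ) {p : E2}
    (hp : (fderiv ℝ ψ p).IsInvertible) {U : Set E2} (hU : U ∈ 𝓝 p) :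
    ∃ ρ : ℝ, 0 < ρ ∧ ρ ≤ 1 ∧ ball p ρ ⊆ U ∧ (∀ x ∈ ball p ρ, (fderiv ℝ ψ x).IsInvertible) ∧
      ∀ F : Set E2, ∀ s < ρ, F ⊆ closedBall p s → IsClosed F → interior F = ∅ →
        IsClosed (ψ '' F) ∧ interior (ψ '' F) = ∅ := by
  obtain ⟨L, hL⟩ := hp
  have hd : ∀ x, HasFDerivAt ψ (fderiv ℝ ψ x) x := fun x =>
    (hψ.differentiable (by simp)).differentiableAt.hasFDerivAt
  have hLd : HasFDerivAt ψ (L : E2 →L[ℝ] E2) p := by
    rw [hL]
    exact hd p
  set ee := hψ.contDiffAt.toOpenPartialHomeomorph ψ hLd (by simp) with hee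
  have hcoe : (ee : E2 → E2) = ψ := rfl
  have hsrc : p ∈ ee.source := ContDiffAt.mem_toOpenPartialHomeomorph_source _ _ _
  have hinv : ∀ᶠ x in 𝓝 p, (fderiv ℝ ψ x).IsInvertible := by
    have h1 : ContinuousAt (fderiv ℝ ψ) p := (hψ.continuous_fderiv (by simp)).continuousAt
    refine h1.eventually (p := fun T : E2 →L[ℝ] E2 => T.IsInvertible) ?_
    rw [← hL]
    filter_upwards [ContinuousLinearEquiv.nhds L] with T hT
    exact hT
  obtain ⟨ρ, hρ, hρs⟩ := Metric.eventually_nhds_iff_ball.1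
    (hinv.and ((ee.open_source.eventually_mem hsrc).and hU))
  refine ⟨min ρ 1, lt_min hρ one_pos, min_le_right _ _,
    fun x hx => (hρs x (ball_subset_ball (min_le_left _ _) hx)).2.2,
    fun x hx => (hρs x (ball_subset_ball (min_le_left _ _) hx)).1,
    fun F s hs hFs hF hi => ?_⟩
  have hFsrc : F ⊆ ee.source := fun x hx =>
    (hρs x (ball_subset_ball (min_le_left _ _) (closedBall_subset_ball hs (hFs hx)))).2.1
  have hFc : IsCompact F := (isCompact_closedBall p s).of_isClosed_subset hF hFs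
  refine ⟨(hFc.image hψ.continuous).isClosed, ?_⟩
  by_contra hne
  obtain ⟨y, hy⟩ := Set.nonempty_iff_ne_empty.2 hne
  have hO : IsOpen (ee.source ∩ ee ⁻¹' interior (ψ '' F)) :=
    ee.isOpen_inter_preimage isOpen_interior
  have hsub : ee.source ∩ ee ⁻¹' interior (ψ '' F) ⊆ F := by
    rintro x ⟨hx1, hx2⟩
    obtain ⟨z, hz, hzx⟩ := interior_subset hx2
    have : z = x := ee.injOn (hFsrc hz) hx1 hzx
    rwa [← this]
  obtain ⟨z, hz, hzy⟩ := interior_subset hy
  have : z ∈ interior F := interior_maximal hsub hO ⟨hFsrc hz, by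
    change ψ z ∈ interior (ψ '' F)
    rw [hzy]
    exact hy⟩
  rw [hi] at this
  exact this

variable {φ₀ : E2 → ℝ} (hφ₀ : ContDiff ℝ ∞ φ₀)
    (hbad : BadAt (fun x => Matrix.diagonal fun _ => Real.exp (2 * φ₀ x)) 0)

include hφ₀ hbad in
/-- **bad points near a point of an arbitrary metric** -/
theorem local_main {Ω : Set E2} (hΩ : IsOpen Ω) {g₀ : E2 → Matrix (Fin 2) (Fin 2) ℝ}
    (hg₀ : IsMetricOn ∞ g₀ Ω) {p : E2} (hp : p ∈ Ω) {m : ℕ} (hm : FlatToOrder m g₀ p)
    {V : Set E2} (hV : IsOpen V) (hpV : p ∈ V) {ε : ℝ} (hε : 0 < ε) :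
    ∃ r : ℝ, 0 < r ∧ closedBall p r ⊆ V ∩ Ω ∧
      ∀ F ⊆ closedBall p r, IsClosed F → interior F = ∅ →
      ∃ g : E2 → Matrix (Fin 2) (Fin 2) ℝ, IsMetricOn ∞ g Ω ∧ (∀ x ∉ V, g x = g₀ x) ∧
        (∀ j ≤ m, ∀ (i k : Fin 2) (x : E2),
          ‖iteratedFDeriv ℝ j (fun y => g y i k - g₀ y i k) x‖ ≤ ε) ∧
        ∀ q ∈ F, BadAt g q := by
  obtain ⟨ψ, hψ, hjet⟩ := hm
  have hp0 : ∀ i k, pb ψ i k p = g₀ p i k := fun i k => by
    have h1 := hjet 0 (Nat.zero_le _) i k
    rw [← norm_eq_zero, norm_iteratedFDeriv_zero, norm_eq_zero, sub_eq_zero] at h1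
    exact h1.symm
  have hinvp := invertible_of_posDef (hg₀.posDef p hp) hp0
  -- global smooth functions which agree with the difference
  have hu : ∀ i k, ContDiffOn ℝ ∞ (fun x => g₀ x i k - pb ψ i k x) Ω := fun i k =>
    (hg₀.contDiffOn i k).sub (pb_smooth hψ i k).contDiffOn
  choose v hv s hs hvs using fun i k => exists_global hΩ (hu i k) hp
  have hvjet : ∀ i k, ∀ j ≤ m, iteratedFDeriv ℝ j (v i k) p = 0 := fun i k j hj => by
    have h1 : v i k =ᶠ[𝓝 p] fun x => g₀ x i k - pb ψ i k x := by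
      filter_upwards [ball_mem_nhds p (hs i k)] with x hx
      exact hvs i k x hx
    rw [(h1.iteratedFDeriv ℝ j).eq_of_nhds]
    exact hjet j hj i k
  choose C hC hC' using fun i k => cut_small (hv i k) (hvjet i k)
  have hU : (V ∩ Ω) ∩ ⋂ i, ⋂ k, ball p (s i k) ∈ 𝓝 p :=
    inter_mem (inter_mem (hV.mem_nhds hpV) (hΩ.mem_nhds hp))
      (Filter.iInter_mem.2 fun i => Filter.iInter_mem.2 fun k => ball_mem_nhds p (hs i k))
  obtain ⟨ρ, hρ, hρ1, hρU, hρinv, hρF⟩ := exists_chart hψ hinvp hU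
  have hρV : ball p ρ ⊆ V := fun x hx => (hρU hx).1.1
  have hρΩ : ball p ρ ⊆ Ω := fun x hx => (hρU hx).1.2
  have hρv : ∀ x ∈ ball p ρ, ∀ i k, v i k x = g₀ x i k - pb ψ i k x := fun x hx i k =>
    hvs i k x (mem_iInter.1 (mem_iInter.1 (hρU hx).2 i) k)
  -- the radius of the cut-off
  obtain ⟨C₀, hC₀, hCC₀⟩ : ∃ C₀ : ℝ, 0 < C₀ ∧ ∀ i k, C i k ≤ C₀ := by
    refine ⟨C 0 0 + C 0 1 + C 1 0 + C 1 1, ?_, fun i k => ?_⟩
    · linarith [hC 0 0, hC 0 1, hC 1 0, hC 1 1]
    · fin_cases i <;> fin_cases k <;> simp <;> linarith [hC 0 0, hC 0 1, hC 1 0, hC 1 1]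
  set r := min (ρ / 2) (ε / (2 * C₀)) with hr
  have hr0 : 0 < r := lt_min (by positivity) (by positivity)
  have hrρ : r < ρ := lt_of_le_of_lt (min_le_left _ _) (by linarith)
  have hr1 : r ≤ 1 := (hrρ.le).trans hρ1
  have hrC : ∀ i k, C i k * r ≤ ε / 2 := fun i k => by
    have h1 : r ≤ ε / (2 * C₀) := min_le_right _ _
    rw [le_div_iff₀ (by positivity)] at h1
    have h2 : C i k * r ≤ C₀ * r := mul_le_mul_of_nonneg_right (hCC₀ i k) hr0.le
    linarith
  have hballρ : ball p r ⊆ ball p ρ := ball_subset_ball hrρ.le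
  refine ⟨r / 4, by positivity, fun x hx => ?_, fun F hFs hF hi => ?_⟩
  · have hx' : x ∈ ball p ρ := closedBall_subset_ball (by linarith) hx
    exact ⟨hρV hx', hρΩ hx'⟩
  obtain ⟨hF', hi'⟩ := hρF F (r / 4) (by linarith) hFs hF hi
  -- bounds for the derivatives on the support
  obtain ⟨A₁, hA₁, hA₁'⟩ := exists_bound (chi_smooth p r) (isCompact_closedBall p r) m
  obtain ⟨D, hD1, hD⟩ := exists_bound hψ (isCompact_closedBall p r) m
  choose A hA hA' using fun i k => exists_bound (pb_smooth hψ i k) (isCompact_closedBall p r) m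
  obtain ⟨A₂, hA₂, hAA₂⟩ : ∃ A₂ : ℝ, 1 ≤ A₂ ∧ ∀ i k, A i k ≤ A₂ := by
    refine ⟨A 0 0 + A 0 1 + A 1 0 + A 1 1, ?_, fun i k => ?_⟩
    · linarith [hA 0 0, hA 0 1, hA 1 0, hA 1 1]
    · fin_cases i <;> fin_cases k <;> simp <;> linarith [hA 0 0, hA 0 1, hA 1 0, hA 1 1]
  obtain ⟨K, hK⟩ : ∃ K : ℝ, K = 2 ^ m * A₁ * (2 ^ m * ((m.factorial : ℝ) * D ^ m) * A₂) := ⟨_, rfl⟩
  have hK0 : 0 < K := by
    rw [hK]
    have : (0 : ℝ) < m.factorial := by exact_mod_cast m.factorial_pos
    positivity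
  obtain ⟨φ, hφ, hφ1, hφε, hφbad⟩ := exists_factor hφ₀ hbad hF' hi' m
    (ε := ε / (2 * K)) (by positivity)
  have hcomp : ContDiff ℝ ∞ fun y => φ (ψ y) := hφ.comp hψ
  have hcomp_bound : ∀ x ∈ closedBall p r, ∀ j ≤ m,
      ‖iteratedFDeriv ℝ j (fun y => φ (ψ y)) x‖ ≤ (m.factorial : ℝ) * D ^ m * (ε / (2 * K)) := by
    intro x hx j hj
    have h1 := norm_iteratedFDeriv_comp_le (N := ∞) hφ hψ (n := j) (by exact_mod_cast le_top) x
      (C := ε / (2 * K)) (D := D) (fun i hi => hφε i (hi.trans hj) _) (fun i hi1 hi2 =>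
        (hD i (hi2.trans hj) x hx).trans (le_self_pow₀ hD1 (by omega)))
    refine h1.trans ?_
    have h2 : (j.factorial : ℝ) ≤ m.factorial := by exact_mod_cast Nat.factorial_le hj
    have h3 : D ^ j ≤ D ^ m := pow_le_pow_right₀ hD1 hj
    have h4 : 0 ≤ ε / (2 * K) := by positivity
    calc (j.factorial : ℝ) * (ε / (2 * K)) * D ^ j = (j.factorial * D ^ j) * (ε / (2 * K)) := by ring
      _ ≤ ((m.factorial : ℝ) * D ^ m) * (ε / (2 * K)) := by
        refine mul_le_mul_of_nonneg_right ?_ h4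
        exact mul_le_mul h2 h3 (by positivity) (by positivity)
  -- the perturbation
  let w : Fin 2 → Fin 2 → E2 → ℝ := fun i k x =>
    chi p r x * (φ (ψ x) * pb ψ i k x) - chi p r x * v i k x
  have hw1 : ∀ i k, ContDiff ℝ ∞ fun x => chi p r x * (φ (ψ x) * pb ψ i k x) := fun i k =>
    (chi_smooth p r).mul (hcomp.mul (pb_smooth hψ i k))
  have hw2 : ∀ i k, ContDiff ℝ ∞ fun x => chi p r x * v i k x := fun i k =>
    (chi_smooth p r).mul (hv i k)
  have hw : ∀ i k, ContDiff ℝ ∞ (w i k) := fun i k => (hw1 i k).sub (hw2 i k)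
  have hwbound : ∀ j ≤ m, ∀ i k x, ‖iteratedFDeriv ℝ j (w i k) x‖ ≤ ε := by
    intro j hj i k x
    have h1 : iteratedFDeriv ℝ j (w i k) x =
        iteratedFDeriv ℝ j (fun x => chi p r x * (φ (ψ x) * pb ψ i k x)) x -
        iteratedFDeriv ℝ j (fun x => chi p r x * v i k x) x :=
      iteratedFDeriv_sub_apply ((hw1 i k).of_le (by exact_mod_cast le_top)).contDiffAt
        ((hw2 i k).of_le (by exact_mod_cast le_top)).contDiffAt
    rw [h1]
    refine (norm_sub_le _ _).trans ?_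
    have h2 := (hC' i k r hr0 hr1 j hj x).trans (hrC i k)
    have h3 : ‖iteratedFDeriv ℝ j (fun x => chi p r x * (φ (ψ x) * pb ψ i k x)) x‖ ≤ ε / 2 := by
      by_cases hx : x ∈ closedBall p r
      · refine (mul_bound (chi_smooth p r) (hcomp.mul (pb_smooth hψ i k)) (m := m) (A := A₁)
          (B := 2 ^ m * ((m.factorial : ℝ) * D ^ m * (ε / (2 * K))) * A₂) (by linarith)
          (fun i hi => hA₁' i hi x hx) (fun l hl => ?_) hj).trans ?_
        · exact mul_bound hcomp (pb_smooth hψ i k) (by positivity)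
            (fun i hi => hcomp_bound x hx i hi)
            (fun l hl => (hA' i k l hl x hx).trans (hAA₂ i k)) hl
        · have h4 : 2 ^ m * A₁ * (2 ^ m * ((m.factorial : ℝ) * D ^ m * (ε / (2 * K))) * A₂) =
              K * (ε / (2 * K)) := by
            rw [hK]
            ring
          rw [h4]
          field_simp
          exact le_rfl
      · have h1 : (fun x => chi p r x * (φ (ψ x) * pb ψ i k x)) =ᶠ[𝓝 x] fun _ => 0 := by
          filter_upwards [isClosed_closedBall.isOpen_compl.mem_nhds hx] with y hy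
          rw [chi_zero hr0 fun h => hy (ball_subset_closedBall h), zero_mul]
        rw [(h1.iteratedFDeriv ℝ j).eq_of_nhds, iteratedFDeriv_fun_zero]
        simp only [Pi.zero_apply, norm_zero]
        positivity
    linarith
  have hwzero : ∀ x ∉ ball p r, ∀ i k, w i k x = 0 := fun x hx i k => by
    change chi p r x * (φ (ψ x) * pb ψ i k x) - chi p r x * v i k x = 0
    rw [chi_zero hr0 hx]
    ring
  have hgeq : ∀ x ∈ ball p r, ∀ i k, g₀ x i k + w i k x =
      (1 - chi p r x) * g₀ x i k + (chi p r x * (1 + φ (ψ x))) * pb ψ i k x := fun x hx i k => by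
    change g₀ x i k + (chi p r x * (φ (ψ x) * pb ψ i k x) - chi p r x * v i k x) = _
    rw [hρv x (hballρ hx)]
    ring
  refine ⟨fun x => g₀ x + Matrix.of fun i k => w i k x, ⟨fun i k => ?_, fun x hx => ?_⟩,
    fun x hx => ?_, fun j hj i k x => ?_, fun q hq => ?_⟩
  · exact (hg₀.contDiffOn i k).add (hw i k).contDiffOn
  · by_cases hxr : x ∈ ball p r
    · have h1 : (g₀ x + Matrix.of fun i k => w i k x) = (1 - chi p r x) • g₀ x +
          (chi p r x * (1 + φ (ψ x))) • (Matrix.of fun i k => pb ψ i k x) := by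
        ext i k
        exact hgeq x hxr i k
      rw [h1]
      have h2 : 0 ≤ 1 - chi p r x := sub_nonneg.2 (chi_le_one p r x)
      have h3 : 0 < 1 + φ (ψ x) := by linarith [hφ1 (ψ x)]
      have hpb := pb_posDef (hρinv x (hballρ hxr))
      rcases (chi_nonneg p r x).eq_or_lt with h4 | h4
      · rw [← h4]
        simpa using hg₀.posDef x hx
      · exact Matrix.PosDef.posSemidef_add ((hg₀.posDef x hx).posSemidef.smul h2)
          (hpb.smul (mul_pos h4 h3))
    · have h1 : (g₀ x + Matrix.of fun i k => w i k x) = g₀ x := by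
        ext i k
        change g₀ x i k + w i k x = g₀ x i k
        rw [hwzero x hxr, add_zero]
      rw [h1]
      exact hg₀.posDef x hx
  · ext i k
    change g₀ x i k + w i k x = g₀ x i k
    rw [hwzero x (fun h => hx (hρV (hballρ h))), add_zero]
  · have h1 : (fun y => (g₀ y + Matrix.of fun i k => w i k y) i k - g₀ y i k) = w i k :=
      funext fun y => add_sub_cancel_left _ _
    rw [h1]
    exact hwbound j hj i k x
  · have hq' := hFs hq
    have hqρ : q ∈ ball p ρ := closedBall_subset_ball (by linarith) hq'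
    refine pull hψ (hρinv q hqρ) (φ := φ) ?_ (hφbad (ψ q) (mem_image_of_mem ψ hq))
    have hqr : q ∈ ball p (r / 2) := closedBall_subset_ball (by linarith) hq'
    filter_upwards [isOpen_ball.mem_nhds hqr] with x hx i k
    have hx1 := chi_one hr0 (ball_subset_closedBall hx)
    have hxr : x ∈ ball p r := ball_subset_ball (by linarith) hx
    change g₀ x i k + w i k x = (1 + φ (ψ x)) * pb ψ i k x
    rw [hgeq x hxr, hx1]
    ring

end Vale.Agent.P229.H870
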