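import Vale.Agent.P229.H832.Sum

/-!
# P229: transport of bad points by a local diffeomorphism
-/

open scoped ContDiff RealInnerProductSpace Topology
open Set Metric Filter

namespace Vale.Agent.P229.H870

open Vale.Agent.P229.H832 (BadAt cf cf_same cf_ne)

/-- the standard basis -/
noncomputable abbrev e (i : Fin 2) : E2 := EuclideanSpace.single i 1

theorem expand (v : E2) : v = v 0 • e 0 + v 1 • e 1 := by
  ext i
  fin_cases i <;> simp [e]

/-- a bilinear form is determined by its coefficients -/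
theorem inner_expand {E : Type*} [NormedAddCommGroup E] [InnerProductSpace ℝ E] (L : E2 →L[ℝ] E)
    (v w : E2) : ⟪L v, L w⟫ = v 0 * w 0 * ⟪L (e 0), L (e 0)⟫ + v 0 * w 1 * ⟪L (e 0), L (e 1)⟫ +
      v 1 * w 0 * ⟪L (e 1), L (e 0)⟫ + v 1 * w 1 * ⟪L (e 1), L (e 1)⟫ := by
  conv_lhs => rw [expand v, expand w]
  simp only [map_add, map_smul, inner_add_left, inner_add_right, real_inner_smul_left,
    real_inner_smul_right]
  ring

/-- if the coefficients of two pulled back forms are proportional so are the forms -/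
theorem inner_congr {E E' : Type*} [NormedAddCommGroup E] [InnerProductSpace ℝ E]
    [NormedAddCommGroup E'] [InnerProductSpace ℝ E'] (L : E2 →L[ℝ] E) (L' : E2 →L[ℝ] E') (c : ℝ)
    (h : ∀ i k : Fin 2, ⟪L (e i), L (e k)⟫ = c * ⟪L' (e i), L' (e k)⟫) (v w : E2) :
    ⟪L v, L w⟫ = c * ⟪L' v, L' w⟫ := by
  rw [inner_expand L, inner_expand L', h, h, h, h]
  ring

theorem cf_inner (φ : E2 → ℝ) (y : E2) (i k : Fin 2) :
    cf φ y i k = (1 + φ y) * ⟪e i, e k⟫ := by
  by_cases h : i = k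
  · subst h
    rw [cf_same]
    simp [e]
  · rw [cf_ne _ _ h]
    have : ⟪e i, e k⟫ = 0 := by
      simp [e, EuclideanSpace.inner_single_left, h]
    rw [this, mul_zero]

/-- a realization of class `C^n`, `n ≥ 4`, is one of class `C^4` -/
theorem badAt_of_four {g : E2 → Matrix (Fin 2) (Fin 2) ℝ} {q : E2}
    (h : ¬ LocallyRealizableAt 4 g q) : BadAt g q := by
  rintro n hn ⟨U, hU, hq, F, hF, hi⟩
  exact h ⟨U, hU, hq, F, hF.of_le hn, hi⟩

/-- **transport by a local diffeomorphism** -/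
theorem pull {ψ : E2 → E2} (hψ : ContDiff ℝ ∞ ψ) {q : E2} (hL : (fderiv ℝ ψ q).IsInvertible)
    {φ : E2 → ℝ} {g : E2 → Matrix (Fin 2) (Fin 2) ℝ}
    (hg : ∀ᶠ x in 𝓝 q, ∀ i k, g x i k =
      (1 + φ (ψ x)) * ⟪fderiv ℝ ψ x (e i), fderiv ℝ ψ x (e k)⟫)
    (hbad : BadAt (cf φ) (ψ q)) : BadAt g q := by
  refine badAt_of_four ?_
  rintro ⟨U, hU, hq, F, hF, hi⟩
  refine hbad 4 le_rfl ?_
  obtain ⟨L, hL⟩ := hL
  have hd : ∀ x, HasFDerivAt ψ (fderiv ℝ ψ x) x := fun x =>
    (hψ.differentiable (by simp)).differentiableAt.hasFDerivAt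
  have hLd : HasFDerivAt ψ (L : E2 →L[ℝ] E2) q := by
    rw [hL]
    exact hd q
  have hψ4 : ContDiff ℝ 4 ψ := by exact_mod_cast contDiff_infty.1 hψ 4
  set ee := hψ4.contDiffAt.toOpenPartialHomeomorph ψ hLd (by simp) with hee
  have hcoe : (ee : E2 → E2) = ψ := rfl
  have hsrc : q ∈ ee.source := ContDiffAt.mem_toOpenPartialHomeomorph_source _ _ _
  have hinv : ∀ᶠ x in 𝓝 q, (fderiv ℝ ψ x).IsInvertible := by
    have h1 : ContinuousAt (fderiv ℝ ψ) q := (hψ.continuous_fderiv (by simp)).continuousAt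
    refine h1.eventually (p := fun T : E2 →L[ℝ] E2 => T.IsInvertible) ?_
    rw [← hL]
    filter_upwards [ContinuousLinearEquiv.nhds L] with T hT
    exact hT
  obtain ⟨W, hW, hWo, hqW⟩ := _root_.eventually_nhds_iff.1
    (hg.and (hinv.and ((hU.eventually_mem hq).and (ee.open_source.eventually_mem hsrc))))
  refine ⟨ee.target ∩ ee.symm ⁻¹' W, ee.symm.isOpen_inter_preimage hWo, ?_,
    fun y => F (ee.symm y), ?_, ?_⟩
  · refine ⟨ee.map_source hsrc, ?_⟩
    change ee.symm (ee q) ∈ W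
    rwa [ee.left_inv hsrc]
  · intro y hy
    obtain ⟨hy1, hy2⟩ := hy
    obtain ⟨-, ⟨M, hM⟩, hxU, -⟩ := hW _ hy2
    have h1 : ContDiffAt ℝ 4 ee.symm y := by
      refine ee.contDiffAt_symm (f₀' := M) hy1 ?_ ?_
      · rw [hM]
        exact hd _
      · exact hψ4.contDiffAt
    exact ((hF.contDiffAt (hU.mem_nhds hxU)).comp y h1).contDiffWithinAt
  · rintro y ⟨hy1, hy2⟩ i k
    obtain ⟨hgx, ⟨M, hM⟩, hxU, -⟩ := hW _ hy2
    set x := ee.symm y with hx
    have hyx : ψ x = y := ee.right_inv hy1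
    have h1 : HasFDerivAt ee.symm (M.symm : E2 →L[ℝ] E2) y := by
      refine ee.hasFDerivAt_symm hy1 ?_
      rw [hM]
      exact hd _
    have hFd : DifferentiableAt ℝ F x := (hF.contDiffAt (hU.mem_nhds hxU)).differentiableAt
      (by simp)
    have h2 : HasFDerivAt (fun y => F (ee.symm y)) ((fderiv ℝ F x).comp (M.symm : E2 →L[ℝ] E2)) y :=
      hFd.hasFDerivAt.comp y h1
    rw [h2.fderiv]
    change ⟪fderiv ℝ F x (M.symm (e i)), fderiv ℝ F x (M.symm (e k))⟫ = _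
    rw [inner_congr (fderiv ℝ F x) (fderiv ℝ ψ x) (1 + φ (ψ x)) (fun i k => by
      rw [← hgx i k]
      exact hi x hxU i k), cf_inner, hyx, ← hM]
    change _ * ⟪M (M.symm (e i)), M (M.symm (e k))⟫ = _
    rw [M.apply_symm_apply, M.apply_symm_apply]

end Vale.Agent.P229.H870
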