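import Vale.Agent.P229.H870.Curv

/-!
# P229: the ring of smooth functions and its ideals of functions vanishing to some order at a point
-/

open scoped ContDiff RealInnerProductSpace Topology
open Set Metric Filter Finset.Nat

namespace Vale.Agent.P229.H870

/-- the ring of smooth functions -/
def SF : Subalgebra ℝ (E2 → ℝ) where
  carrier := {u | ContDiff ℝ ∞ u}
  mul_mem' := fun {a b} (ha : ContDiff ℝ ∞ a) (hb : ContDiff ℝ ∞ b) =>
    (ha.mul hb : ContDiff ℝ ∞ fun x => a x * b x)
  add_mem' := fun {a b} (ha : ContDiff ℝ ∞ a) (hb : ContDiff ℝ ∞ b) =>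
    (ha.add hb : ContDiff ℝ ∞ fun x => a x + b x)
  algebraMap_mem' := fun c => (contDiff_const : ContDiff ℝ ∞ fun _ : E2 => c)

theorem sm (u : SF) : ContDiff ℝ ∞ u.1 := u.2

theorem pd_smooth {u : E2 → ℝ} (hu : ContDiff ℝ ∞ u) (k : Fin 2) : ContDiff ℝ ∞ (pd k u) :=
  (hu.fderiv_right (m := ∞) (by simp)).clm_apply contDiff_const

theorem dfa (u : SF) (x : E2) : DifferentiableAt ℝ u.1 x :=
  ((sm u).differentiable (by simp)).differentiableAt

/-- the partial derivatives -/
noncomputable def dl (k : Fin 2) : SF →ₗ[ℝ] SF where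
  toFun u := ⟨pd k u.1, pd_smooth (sm u) k⟩
  map_add' u v := by
    ext x
    change fderiv ℝ (u.1 + v.1) x _ = fderiv ℝ u.1 x _ + fderiv ℝ v.1 x _
    rw [fderiv_add (dfa u x) (dfa v x)]
    rfl
  map_smul' c u := by
    ext x
    change fderiv ℝ (c • u.1) x _ = c • fderiv ℝ u.1 x _
    rw [fderiv_const_smul (dfa u x)]
    rfl

theorem dl_apply (k : Fin 2) (u : SF) (x : E2) : (dl k u).1 x = pd k u.1 x := rfl

theorem dl_mul (k : Fin 2) (u v : SF) : dl k (u * v) = dl k u * v + u * dl k v := by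
  ext x
  change fderiv ℝ (u.1 * v.1) x (e k) = fderiv ℝ u.1 x (e k) * v.1 x + u.1 x * fderiv ℝ v.1 x (e k)
  rw [fderiv_mul (dfa u x) (dfa v x)]
  simp only [add_apply, smul_apply, smul_eq_mul]
  ring

theorem dl_comm (k l : Fin 2) (u : SF) : dl k (dl l u) = dl l (dl k u) := by
  ext x
  exact pd_comm isOpen_univ (sm u).contDiffOn (mem_univ x) k l

/-- the coordinate functions -/
noncomputable def cd (p : E2) (i : Fin 2) : SF :=
  ⟨fun x => x i - p i, (((EuclideanSpace.proj i : E2 →L[ℝ] ℝ).contDiff).sub contDiff_const :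
    ContDiff ℝ ∞ fun x : E2 => x i - p i)⟩

theorem dl_cd (p : E2) (k i : Fin 2) : dl k (cd p i) = if k = i then 1 else 0 := by
  ext x
  have h1 : HasFDerivAt (fun x : E2 => x i - p i) (EuclideanSpace.proj i : E2 →L[ℝ] ℝ) x :=
    ((EuclideanSpace.proj i : E2 →L[ℝ] ℝ).hasFDerivAt).sub_const _
  change fderiv ℝ (fun x : E2 => x i - p i) x (EuclideanSpace.single k 1) = _
  rw [h1.fderiv]
  by_cases h : k = i
  · subst h
    simp
  · rw [if_neg h]
    simp [Ne.symm h]

variable {p : E2}

/-- functions which vanish to order `n` at `p` (i.e. their derivatives of order `< n` vanish) -/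
def Vo (p : E2) : ℕ → SF → Prop
  | 0, _ => True
  | n + 1, u => u.1 p = 0 ∧ ∀ k, Vo p n (dl k u)

theorem Vo.add {n : ℕ} {u v : SF} (hu : Vo p n u) (hv : Vo p n v) : Vo p n (u + v) := by
  induction n generalizing u v with
  | zero => trivial
  | succ n ih =>
    refine ⟨?_, fun k => ?_⟩
    · change u.1 p + v.1 p = 0
      rw [hu.1, hv.1, add_zero]
    · rw [map_add]
      exact ih (hu.2 k) (hv.2 k)

theorem Vo.smul {n : ℕ} {u : SF} (c : ℝ) (hu : Vo p n u) : Vo p n (c • u) := by
  induction n generalizing u with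
  | zero => trivial
  | succ n ih =>
    refine ⟨?_, fun k => ?_⟩
    · change c * u.1 p = 0
      rw [hu.1, mul_zero]
    · rw [map_smul]
      exact ih (hu.2 k)

theorem Vo.neg {n : ℕ} {u : SF} (hu : Vo p n u) : Vo p n (-u) := by
  have := hu.smul (-1)
  rwa [neg_one_smul] at this

theorem Vo.sub {n : ℕ} {u v : SF} (hu : Vo p n u) (hv : Vo p n v) : Vo p n (u - v) := by
  rw [sub_eq_add_neg]
  exact hu.add hv.neg

theorem Vo.zero (n : ℕ) : Vo p n 0 := by
  induction n with
  | zero => trivial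
  | succ n ih => exact ⟨rfl, fun k => by rwa [map_zero]⟩

theorem Vo.pred {n : ℕ} {u : SF} (hu : Vo p (n + 1) u) : Vo p n u := by
  induction n generalizing u with
  | zero => trivial
  | succ n ih => exact ⟨hu.1, fun k => ih (hu.2 k)⟩

theorem Vo.mono {m n : ℕ} {u : SF} (hu : Vo p n u) (h : m ≤ n) : Vo p m u := by
  induction n with
  | zero =>
    obtain rfl : m = 0 := by omega
    trivial
  | succ n ih =>
    rcases Nat.lt_or_ge n m with h1 | h1
    · obtain rfl : m = n + 1 := by omega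
      exact hu
    · exact ih hu.pred h1

theorem Vo.mul {n : ℕ} {u : SF} (hu : Vo p n u) (v : SF) : Vo p n (u * v) := by
  induction n generalizing u v with
  | zero => trivial
  | succ n ih =>
    refine ⟨?_, fun k => ?_⟩
    · change u.1 p * v.1 p = 0
      rw [hu.1, zero_mul]
    · rw [dl_mul]
      exact (ih (hu.2 k) v).add (ih hu.pred (dl k v))

theorem Vo.mul_left {n : ℕ} {u : SF} (hu : Vo p n u) (v : SF) : Vo p n (v * u) := by
  rw [mul_comm]
  exact hu.mul v

theorem Vo.mul_one {n : ℕ} {u v : SF} (hu : Vo p n u) (hv : v.1 p = 0) :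
    Vo p (n + 1) (u * v) := by
  induction n generalizing u with
  | zero => exact ⟨by
      change u.1 p * v.1 p = 0
      rw [hv, mul_zero], fun k => trivial⟩
  | succ n ih =>
    refine ⟨?_, fun k => ?_⟩
    · change u.1 p * v.1 p = 0
      rw [hv, mul_zero]
    · rw [dl_mul]
      exact (ih (hu.2 k)).add (hu.mul (dl k v))

theorem Vo.cancel {n : ℕ} {a b : SF} (ha : a.1 p ≠ 0) (h : Vo p n (a * b)) : Vo p n b := by
  induction n generalizing b with
  | zero => trivial
  | succ n ih =>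
    have h1 : Vo p n b := ih h.pred
    refine ⟨?_, fun k => ih ?_⟩
    · have h2 : a.1 p * b.1 p = 0 := h.1
      exact (mul_eq_zero.1 h2).resolve_left ha
    · have h2 := h.2 k
      rw [dl_mul] at h2
      have h3 := h2.sub (h1.mul_left (dl k a))
      rwa [add_sub_cancel_left] at h3

/-- congruence -/
def Eqv (p : E2) (n : ℕ) (u v : SF) : Prop := Vo p n (u - v)

theorem Eqv.mul {n : ℕ} {u v u' v' : SF} (h : Eqv p n u u') (h' : Eqv p n v v') :
    Eqv p n (u * v) (u' * v') := by
  have h1 : u * v - u' * v' = (u - u') * v + u' * (v - v') := by ring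
  rw [Eqv, h1]
  exact (Vo.mul h v).add (Vo.mul_left h' u')

theorem Eqv.add {n : ℕ} {u v u' v' : SF} (h : Eqv p n u u') (h' : Eqv p n v v') :
    Eqv p n (u + v) (u' + v') := by
  have h1 : u + v - (u' + v') = (u - u') + (v - v') := by ring
  rw [Eqv, h1]
  exact Vo.add h h'

theorem Eqv.sub {n : ℕ} {u v u' v' : SF} (h : Eqv p n u u') (h' : Eqv p n v v') :
    Eqv p n (u - v) (u' - v') := by
  have h1 : u - v - (u' - v') = (u - u') - (v - v') := by ring
  rw [Eqv, h1]
  exact Vo.sub h h'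

/-- iterated partial derivatives at `p` -/
noncomputable def dd (p : E2) : ℕ → ℕ → SF → ℝ
  | 0, 0, u => u.1 p
  | 0, b + 1, u => dd p 0 b (dl 1 u)
  | a + 1, b, u => dd p a b (dl 0 u)

theorem dd_zero_zero (u : SF) : dd p 0 0 u = u.1 p := by rw [dd]

theorem dd_succ_left (a b : ℕ) (u : SF) : dd p (a + 1) b u = dd p a b (dl 0 u) := by rw [dd]

theorem dd_succ_right (a b : ℕ) (u : SF) : dd p a (b + 1) u = dd p a b (dl 1 u) := by
  induction a generalizing u with
  | zero => rw [dd]
  | succ a ih => rw [dd_succ_left, dd_succ_left, ih, dl_comm]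

theorem dd_eq_zero {n : ℕ} {u : SF} (hu : Vo p n u) : ∀ {a b : ℕ}, a + b < n → dd p a b u = 0 := by
  induction n generalizing u with
  | zero => intro a b h; omega
  | succ n ih =>
    intro a b h
    rcases a with _ | a
    · rcases b with _ | b
      · rw [dd_zero_zero]
        exact hu.1
      · rw [dd_succ_right]
        exact ih (hu.2 1) (by omega)
    · rw [dd_succ_left]
      exact ih (hu.2 0) (by omega)

theorem dd_add (a b : ℕ) (u v : SF) : dd p a b (u + v) = dd p a b u + dd p a b v := by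
  induction a generalizing u v with
  | zero =>
    induction b generalizing u v with
    | zero =>
      rw [dd_zero_zero, dd_zero_zero, dd_zero_zero]
      rfl
    | succ b ih => rw [dd_succ_right, dd_succ_right, dd_succ_right, map_add, ih]
  | succ a ih => rw [dd_succ_left, dd_succ_left, dd_succ_left, map_add, ih]

theorem dd_smul (a b : ℕ) (c : ℝ) (u : SF) : dd p a b (c • u) = c * dd p a b u := by
  induction a generalizing u with
  | zero =>
    induction b generalizing u with
    | zero =>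
      rw [dd_zero_zero, dd_zero_zero]
      rfl
    | succ b ih => rw [dd_succ_right, dd_succ_right, map_smul, ih]
  | succ a ih => rw [dd_succ_left, dd_succ_left, map_smul, ih]

/-- the monomial `x^n / n!` -/
noncomputable def pw (p : E2) (i : Fin 2) (n : ℕ) : SF := ((n.factorial : ℝ)⁻¹) • (cd p i) ^ n

theorem dl_pow (k : Fin 2) (u : SF) (n : ℕ) : dl k (u ^ (n + 1)) = ((n + 1 : ℕ) : ℝ) • (u ^ n * dl k u) := by
  induction n with
  | zero => simp
  | succ n ih =>
    rw [pow_succ, dl_mul, ih]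
    have h1 : ((n + 1 + 1 : ℕ) : ℝ) = ((n + 1 : ℕ) : ℝ) + 1 := by push_cast; ring
    rw [h1, add_smul, one_smul, smul_mul_assoc, pow_succ]
    congr 1
    · congr 1
      ring

theorem dl_pw_self (i : Fin 2) (n : ℕ) : dl i (pw p i (n + 1)) = pw p i n := by
  rw [pw, map_smul, dl_pow, dl_cd, if_pos rfl, _root_.mul_one, smul_smul, pw]
  congr 1
  rw [Nat.factorial_succ]
  push_cast
  have h1 : (n.factorial : ℝ) ≠ 0 := by exact_mod_cast n.factorial_ne_zero
  have h2 : (n : ℝ) + 1 ≠ 0 := by positivity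
  field_simp

theorem dl_one (k : Fin 2) : dl k 1 = 0 := by
  have h1 := dl_mul k 1 1
  rw [_root_.mul_one, _root_.mul_one, one_mul] at h1
  exact left_eq_add.1 h1

theorem pw_zero (i : Fin 2) : pw p i 0 = 1 := by simp [pw]

theorem dl_pw_ne {i k : Fin 2} (h : k ≠ i) (n : ℕ) : dl k (pw p i n) = 0 := by
  rcases n with _ | n
  · rw [pw_zero, dl_one]
  · rw [pw, map_smul, dl_pow, dl_cd, if_neg h, mul_zero, smul_zero, smul_zero]

/-- homogeneous polynomials with given derivatives -/
noncomputable def hm (p : E2) (n : ℕ) (s : ℕ → ℕ → ℝ) : SF :=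
  ∑ q ∈ Finset.HasAntidiagonal.antidiagonal n, s q.1 q.2 • (pw p 0 q.1 * pw p 1 q.2)

theorem hm_congr {n : ℕ} {s s' : ℕ → ℕ → ℝ} (h : ∀ a b, a + b = n → s a b = s' a b) :
    hm p n s = hm p n s' :=
  Finset.sum_congr rfl fun q hq => by rw [h q.1 q.2 (Finset.HasAntidiagonal.mem_antidiagonal.1 hq)]

theorem hm_add {n : ℕ} (s s' : ℕ → ℕ → ℝ) :
    hm p n s + hm p n s' = hm p n fun a b => s a b + s' a b := by
  rw [hm, hm, hm, ← Finset.sum_add_distrib]
  exact Finset.sum_congr rfl fun q _ => (add_smul _ _ _).symm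

theorem hm_smul {n : ℕ} (c : ℝ) (s : ℕ → ℕ → ℝ) :
    c • hm p n s = hm p n fun a b => c * s a b := by
  rw [hm, hm, Finset.smul_sum]
  exact Finset.sum_congr rfl fun q _ => smul_smul _ _ _

theorem hm_zero (s : ℕ → ℕ → ℝ) : hm p 0 s = s 0 0 • (1 : SF) := by
  simp [hm, pw_zero]

theorem dl0_hm (n : ℕ) (s : ℕ → ℕ → ℝ) :
    dl 0 (hm p (n + 1) s) = hm p n fun a b => s (a + 1) b := by
  rw [hm, map_sum, sum_antidiagonal_succ]
  simp only [map_smul, dl_mul, dl_pw_ne (show (0 : Fin 2) ≠ 1 by decide), mul_zero, add_zero,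
    dl_pw_self, pw_zero, dl_one, zero_mul, smul_zero, zero_add]
  rfl

theorem dl1_hm (n : ℕ) (s : ℕ → ℕ → ℝ) :
    dl 1 (hm p (n + 1) s) = hm p n fun a b => s a (b + 1) := by
  rw [hm, map_sum, sum_antidiagonal_succ']
  simp only [map_smul, dl_mul, dl_pw_ne (show (1 : Fin 2) ≠ 0 by decide), mul_zero, add_zero,
    dl_pw_self, pw_zero, dl_one, zero_mul, smul_zero, zero_add]
  rfl

theorem cd_p (i : Fin 2) : (cd p i).1 p = 0 := by simp [cd]

theorem hm_p (n : ℕ) (s : ℕ → ℕ → ℝ) : (hm p (n + 1) s).1 p = 0 := by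
  have h1 : ∀ (i : Fin 2) (m : ℕ), (pw p i (m + 1)).1 p = 0 := fun i m => by
    change ((m + 1).factorial : ℝ)⁻¹ * ((cd p i).1 p) ^ (m + 1) = 0
    rw [cd_p]
    simp
  have h2 : (hm p (n + 1) s).1 p = ∑ q ∈ Finset.HasAntidiagonal.antidiagonal (n + 1),
      s q.1 q.2 * ((pw p 0 q.1).1 p * (pw p 1 q.2).1 p) := by
    rw [hm]
    simp
  rw [h2]
  refine Finset.sum_eq_zero fun q hq => ?_
  have h3 := Finset.HasAntidiagonal.mem_antidiagonal.1 hq
  rcases hq1 : q.1 with _ | a
  · rcases hq2 : q.2 with _ | b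
    · omega
    · rw [h1 1 b]
      ring
  · rw [h1 0 a]
    ring

theorem vo_hm (n : ℕ) (s : ℕ → ℕ → ℝ) : Vo p n (hm p n s) := by
  induction n generalizing s with
  | zero => trivial
  | succ n ih =>
    refine ⟨hm_p n s, fun k => ?_⟩
    obtain rfl | rfl : k = 0 ∨ k = 1 := by fin_cases k <;> simp
    · rw [dl0_hm]
      exact ih _
    · rw [dl1_hm]
      exact ih _

/-- Taylor's formula -/
theorem taylor {n : ℕ} {u : SF} (hu : Vo p n u) :
    Vo p (n + 1) (u - hm p n fun a b => dd p a b u) := by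
  induction n generalizing u with
  | zero =>
    refine ⟨?_, fun k => trivial⟩
    rw [hm_zero, dd_zero_zero]
    change u.1 p - u.1 p * 1 = 0
    ring
  | succ n ih =>
    refine ⟨?_, fun k => ?_⟩
    · change u.1 p - (hm p (n + 1) fun a b => dd p a b u).1 p = 0
      rw [hm_p, hu.1, sub_zero]
    · rw [map_sub]
      obtain rfl | rfl : k = 0 ∨ k = 1 := by fin_cases k <;> simp
      · rw [dl0_hm]
        simp only [dd_succ_left]
        exact ih (hu.2 0)
      · rw [dl1_hm]
        simp only [dd_succ_right]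
        exact ih (hu.2 1)

end Vale.Agent.P229.H870
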