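import Vale.Agent.P229.H870.Ring

/-!
# P229: a metric whose curvature vanishes to some order is flat to this order plus two
-/

open scoped ContDiff RealInnerProductSpace Topology
open Set Metric Filter

namespace Vale.Agent.P229.H870

variable {p : E2}

/-- twice the second order part of the curvature -/
noncomputable def lop (G : Fin 2 → Fin 2 → SF) : SF :=
  2 * dl 0 (dl 1 (G 0 1)) - dl 0 (dl 0 (G 1 1)) - dl 1 (dl 1 (G 0 0))

/-- twice the Christoffel symbols -/
noncomputable def gam (G : Fin 2 → Fin 2 → SF) (k l j : Fin 2) : SF :=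
  dl k (G l j) + dl l (G k j) - dl j (G k l)

/-- the determinant -/
noncomputable def dt (G : Fin 2 → Fin 2 → SF) : SF := G 0 0 * G 1 1 - G 0 1 * G 1 0

/-- four times the quadratic part of the curvature (times the determinant) -/
noncomputable def qop (G : Fin 2 → Fin 2 → SF) : SF :=
  G 1 1 * (gam G 0 1 0 * gam G 0 1 0 - gam G 0 0 0 * gam G 1 1 0) -
    G 0 1 * (gam G 0 1 0 * gam G 0 1 1 - gam G 0 0 0 * gam G 1 1 1) -
    G 1 0 * (gam G 0 1 1 * gam G 0 1 0 - gam G 0 0 1 * gam G 1 1 0) +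
    G 0 0 * (gam G 0 1 1 * gam G 0 1 1 - gam G 0 0 1 * gam G 1 1 1)

/-- four times the square of the determinant times the curvature -/
noncomputable def num (G : Fin 2 → Fin 2 → SF) : SF := 2 * dt G * lop G + qop G

/-- the pull-back of the Euclidean metric -/
noncomputable def pull2 (φ : Fin 2 → SF) (i j : Fin 2) : SF :=
  dl i (φ 0) * dl j (φ 0) + dl i (φ 1) * dl j (φ 1)

theorem pull2_symm (φ : Fin 2 → SF) (i j : Fin 2) : pull2 φ i j = pull2 φ j i := by
  rw [pull2, pull2]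
  ring

/-- **the pull-back of the Euclidean metric has curvature zero** -/
theorem num_pull2 (φ : Fin 2 → SF) : num (pull2 φ) = 0 := by
  simp only [num, dt, lop, qop, gam, pull2, map_add, dl_mul, dl_comm 1 0]
  ring

theorem lop_sub (G H : Fin 2 → Fin 2 → SF) : lop (fun i j => G i j - H i j) = lop G - lop H := by
  simp only [lop, map_sub]
  ring

/-- the second order part of the curvature of a difference -/
theorem vo_lop {G : Fin 2 → Fin 2 → SF} {φ : Fin 2 → SF} (hdet : (dt G).1 p ≠ 0) {k : ℕ}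
    (hu : ∀ i j, Vo p (k + 1) (G i j - pull2 φ i j)) (hN : Vo p k (num G)) :
    Vo p k (lop fun i j => G i j - pull2 φ i j) := by
  have h1 : ∀ i j, Eqv p k (G i j) (pull2 φ i j) := fun i j => (hu i j).pred
  have h2 : ∀ k' l j, Eqv p k (gam G k' l j) (gam (pull2 φ) k' l j) := fun k' l j => by
    have h3 : gam G k' l j - gam (pull2 φ) k' l j = dl k' (G l j - pull2 φ l j) +
        dl l (G k' j - pull2 φ k' j) - dl j (G k' l - pull2 φ k' l) := by
      simp only [gam, map_sub]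
      ring
    rw [Eqv, h3]
    exact (((hu l j).2 k').add ((hu k' j).2 l)).sub ((hu k' l).2 j)
  have hq : Eqv p k (qop G) (qop (pull2 φ)) :=
    ((((h1 1 1).mul (((h2 0 1 0).mul (h2 0 1 0)).sub ((h2 0 0 0).mul (h2 1 1 0)))).sub
      ((h1 0 1).mul (((h2 0 1 0).mul (h2 0 1 1)).sub ((h2 0 0 0).mul (h2 1 1 1))))).sub
      ((h1 1 0).mul (((h2 0 1 1).mul (h2 0 1 0)).sub ((h2 0 0 1).mul (h2 1 1 0))))).add
      ((h1 0 0).mul (((h2 0 1 1).mul (h2 0 1 1)).sub ((h2 0 0 1).mul (h2 1 1 1))))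
  have hd : Eqv p k (dt G) (dt (pull2 φ)) :=
    ((h1 0 0).mul (h1 1 1)).sub ((h1 0 1).mul (h1 1 0))
  have h3 : dt G * lop (fun i j => G i j - pull2 φ i j) + dt G * lop (fun i j => G i j -
      pull2 φ i j) = num G - (qop G - qop (pull2 φ)) -
      (dt G - dt (pull2 φ)) * (2 * lop (pull2 φ)) - num (pull2 φ) := by
    rw [lop_sub, num, num]
    ring
  rw [num_pull2, sub_zero] at h3
  have h4 : Vo p k (dt G * (lop (fun i j => G i j - pull2 φ i j) + lop (fun i j => G i j -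
      pull2 φ i j))) := by
    rw [mul_add, h3]
    exact (hN.sub hq).sub (Vo.mul hd _)
  have h5 := (h4.cancel hdet).smul (1 / 2)
  rwa [← two_smul ℝ, smul_smul, show (1 / 2 : ℝ) * 2 = 1 by norm_num, one_smul] at h5

/-- the linear algebra of the step -/
theorem exists_coeff {n : ℕ} (hn : 1 ≤ n) (s : ℕ → ℕ → Fin 2 → Fin 2 → ℝ)
    (hs : ∀ a b i j, s a b i j = s a b j i)
    (hL : ∀ a b, a + b + 2 = n → 2 * s (a + 1) (b + 1) 0 1 = s (a + 2) b 1 1 + s a (b + 2) 0 0) :
    ∃ t : ℕ → Fin 2 → ℝ, ∀ a b, a + b = n → ∀ i j : Fin 2,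
      s a b i j = t (b + i.1) j + t (b + j.1) i := by
  obtain ⟨t, ht0, ht1⟩ : ∃ t : ℕ → Fin 2 → ℝ,
      (∀ b, t b 0 = if b ≤ n then s (n - b) b 0 0 / 2 else s 0 n 0 1 - s 1 (n - 1) 1 1 / 2) ∧
      ∀ b, t b 1 = if b = 0 then s n 0 0 1 - s (n - 1) 1 0 0 / 2 else
        s (n + 1 - b) (b - 1) 1 1 / 2 :=
    ⟨fun b => ![if b ≤ n then s (n - b) b 0 0 / 2 else s 0 n 0 1 - s 1 (n - 1) 1 1 / 2,
      if b = 0 then s n 0 0 1 - s (n - 1) 1 0 0 / 2 else s (n + 1 - b) (b - 1) 1 1 / 2],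
      fun b => rfl, fun b => rfl⟩
  have h00 : ∀ a b, a + b = n → s a b 0 0 = t (b + 0) 0 + t (b + 0) 0 := fun a b hab => by
    rw [add_zero, ht0, if_pos (by omega), show n - b = a by omega]
    ring
  have h11 : ∀ a b, a + b = n → s a b 1 1 = t (b + 1) 1 + t (b + 1) 1 := fun a b hab => by
    rw [ht1, if_neg (by omega), show n + 1 - (b + 1) = a by omega, Nat.add_sub_cancel]
    ring
  have h01 : ∀ a b, a + b = n → s a b 0 1 = t (b + 0) 1 + t (b + 1) 0 := fun a b hab => by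
    rw [add_zero, ht1, ht0]
    rcases b with _ | b
    · rw [if_pos rfl, if_pos (by omega), show n - (0 + 1) = n - 1 by omega, show a = n by omega]
      ring
    · rw [if_neg (by omega)]
      rcases a with _ | a
      · rw [if_neg (by omega), show n + 1 - (b + 1) = 1 + b + 1 - (b + 1) by omega,
          show 1 + b + 1 - (b + 1) = 1 by omega, Nat.add_sub_cancel, show n - 1 = b by omega,
          show n = b + 1 by omega]
        ring
      · rw [if_pos (by omega), show n + 1 - (b + 1) = a + 2 by omega, Nat.add_sub_cancel,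
          show n - (b + 1 + 1) = a by omega]
        have := hL a b (by omega)
        linarith
  refine ⟨t, fun a b hab i j => ?_⟩
  obtain rfl | rfl : i = 0 ∨ i = 1 := by fin_cases i <;> simp
  · obtain rfl | rfl : j = 0 ∨ j = 1 := by fin_cases j <;> simp
    · exact h00 a b hab
    · exact h01 a b hab
  · obtain rfl | rfl : j = 0 ∨ j = 1 := by fin_cases j <;> simp
    · rw [hs, add_comm]
      exact h01 a b hab
    · exact h11 a b hab

/-- **the step** -/
theorem step {n : ℕ} (hn : 1 ≤ n) {G : Fin 2 → Fin 2 → SF} (hG : ∀ i j, G i j = G j i)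
    {φ : Fin 2 → SF} (hdet : (dl 0 (φ 0)).1 p * (dl 1 (φ 1)).1 p -
      (dl 1 (φ 0)).1 p * (dl 0 (φ 1)).1 p ≠ 0)
    (hu : ∀ i j, Vo p n (G i j - pull2 φ i j))
    (hL : ∀ a b, a + b + 2 = n → dd p a b (lop fun i j => G i j - pull2 φ i j) = 0) :
    ∃ φ' : Fin 2 → SF, (∀ i c, (dl i (φ' c)).1 p = (dl i (φ c)).1 p) ∧
      ∀ i j, Vo p (n + 1) (G i j - pull2 φ' i j) := by
  obtain ⟨s, hs⟩ : ∃ s : ℕ → ℕ → Fin 2 → Fin 2 → ℝ,
      ∀ a b i j, s a b i j = dd p a b (G i j - pull2 φ i j) := ⟨_, fun _ _ _ _ => rfl⟩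
  obtain ⟨t, ht⟩ := exists_coeff hn s (fun a b i j => by rw [hs, hs, hG, pull2_symm])
    (fun a b hab => by
      have h1 := hL a b hab
      have h2 : (lop fun i j => G i j - pull2 φ i j) = (2 : ℝ) • dl 0 (dl 1 (G 0 1 - pull2 φ 0 1)) +
          (-1 : ℝ) • dl 0 (dl 0 (G 1 1 - pull2 φ 1 1)) +
          (-1 : ℝ) • dl 1 (dl 1 (G 0 0 - pull2 φ 0 0)) := by
        rw [lop, two_smul, neg_one_smul, neg_one_smul]
        ring
      rw [h2, dd_add, dd_add, dd_smul, dd_smul, dd_smul, ← dd_succ_left, ← dd_succ_right,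
        ← dd_succ_left, ← dd_succ_left, ← dd_succ_right, ← dd_succ_right, ← hs, ← hs, ← hs] at h1
      linarith)
  -- the components with respect to the frame
  obtain ⟨A, hA⟩ : ∃ A : Fin 2 → Fin 2 → ℝ, ∀ c j, A c j = (dl j (φ c)).1 p :=
    ⟨_, fun _ _ => rfl⟩
  have hdet' : A 0 0 * A 1 1 - A 0 1 * A 1 0 ≠ 0 := by
    rw [hA, hA, hA, hA]
    exact hdet
  obtain ⟨T, hT⟩ : ∃ T : ℕ → Fin 2 → ℝ, ∀ b j, T b 0 * A 0 j + T b 1 * A 1 j = t b j := by
    refine ⟨fun b => ![(t b 0 * A 1 1 - t b 1 * A 1 0) / (A 0 0 * A 1 1 - A 0 1 * A 1 0),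
      (t b 1 * A 0 0 - t b 0 * A 0 1) / (A 0 0 * A 1 1 - A 0 1 * A 1 0)], fun b j => ?_⟩
    simp only [Matrix.cons_val_zero, Matrix.cons_val_one]
    obtain rfl | rfl : j = 0 ∨ j = 1 := by fin_cases j <;> simp
    · rw [div_mul_eq_mul_div, div_mul_eq_mul_div, ← add_div, div_eq_iff hdet']
      ring
    · rw [div_mul_eq_mul_div, div_mul_eq_mul_div, ← add_div, div_eq_iff hdet']
      ring
  let X : Fin 2 → SF := fun c => hm p (n + 1) fun _ b => T b c
  have hX : ∀ i c : Fin 2, dl i (X c) = hm p n fun _ b => T (b + i.1) c := fun i c => by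
    obtain rfl | rfl : i = 0 ∨ i = 1 := by fin_cases i <;> simp
    · exact dl0_hm n _
    · exact dl1_hm n _
  have hXn : ∀ i c, Vo p n (dl i (X c)) := fun i c => by
    rw [hX]
    exact vo_hm n _
  have hXp : ∀ i c, (dl i (X c)).1 p = 0 := fun i c => by
    obtain ⟨m, rfl⟩ : ∃ m, n = m + 1 := ⟨n - 1, by omega⟩
    rw [hX]
    exact hm_p m _
  -- the derivatives of the old map
  let E : Fin 2 → Fin 2 → SF := fun c j => dl j (φ c) - A c j • (1 : SF)
  have hE : ∀ c j, (E c j).1 p = 0 := fun c j => by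
    change (dl j (φ c)).1 p - A c j * 1 = 0
    rw [hA, _root_.mul_one, sub_self]
  have hφE : ∀ c j, dl j (φ c) = E c j + A c j • (1 : SF) := fun c j =>
    (sub_add_cancel _ _).symm
  have hbr : ∀ i j, (hm p n fun a b => s a b i j) =
      (A 0 i • dl j (X 0) + A 0 j • dl i (X 0)) + (A 1 i • dl j (X 1) + A 1 j • dl i (X 1)) := by
    intro i j
    rw [hX, hX, hX, hX, hm_smul, hm_smul, hm_smul, hm_smul, hm_add, hm_add, hm_add]
    refine hm_congr fun a b hab => ?_
    rw [ht a b hab, ← hT, ← hT]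
    ring
  refine ⟨fun c => φ c + X c, fun i c => ?_, fun i j => ?_⟩
  · rw [map_add]
    change (dl i (φ c)).1 p + (dl i (X c)).1 p = _
    rw [hXp, add_zero]
  · have h1 : G i j - pull2 (fun c => φ c + X c) i j =
        (G i j - pull2 φ i j - hm p n fun a b => s a b i j) -
        (dl j (X 0) * E 0 i + dl i (X 0) * E 0 j + dl i (X 0) * dl j (X 0)) -
        (dl j (X 1) * E 1 i + dl i (X 1) * E 1 j + dl i (X 1) * dl j (X 1)) := by
      rw [hbr]
      simp only [pull2, map_add, Algebra.smul_def]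
      rw [hφE 0 i, hφE 0 j, hφE 1 i, hφE 1 j]
      simp only [Algebra.smul_def]
      ring
    rw [h1]
    have h2 : Vo p (n + 1) (G i j - pull2 φ i j - hm p n fun a b => s a b i j) := by
      simp only [hs]
      exact taylor (hu i j)
    exact (h2.sub ((((hXn j 0).mul_one (hE 0 i)).add ((hXn i 0).mul_one (hE 0 j))).add
      ((hXn i 0).mul_one (hXp j 0)))).sub ((((hXn j 1).mul_one (hE 1 i)).add
      ((hXn i 1).mul_one (hE 1 j))).add ((hXn i 1).mul_one (hXp j 1)))

end Vale.Agent.P229.H870
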